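import Mathlib.Computability.Language
import Mathlib.Computability.DFA

namespace Vale.Agent.P329.H36

/-- Generalized regular expressions. -/
inductive Expr (α : Type) : Type where
  | zero : Expr α
  | one : Expr α
  | letter : α → Expr α
  | add : Expr α → Expr α → Expr α
  | mul : Expr α → Expr α → Expr α
  | neg : Expr α → Expr α
  | star : Expr α → Expr α

namespace Expr

variable {α : Type}

/-- The language denoted by an expression. -/
def lang : Expr α → Language α
  | zero => 0
  | one => 1
  | letter a => {[a]}
  | add P Q => P.lang + Q.lang
  | mul P Q => P.lang * Q.lang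
  | neg P => P.langᶜ
  | star P => KStar.kstar P.lang

/-- Star height. -/
def height : Expr α → ℕ
  | zero => 0
  | one => 0
  | letter _ => 0
  | add P Q => max P.height Q.height
  | mul P Q => max P.height Q.height
  | neg P => P.height
  | star P => P.height + 1

/-- Over one letter, a height-zero language is finite or cofinite. -/
theorem eventually_const (P : Expr Unit) (h : P.height = 0) :
    ∃ N, (∀ w : List Unit, N ≤ w.length → w ∈ P.lang) ∨
      (∀ w : List Unit, N ≤ w.length → w ∉ P.lang) := by
  induction P with
  | zero => exact ⟨0, Or.inr fun w _ => by simp [lang]⟩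
  | one =>
    refine ⟨1, Or.inr fun w hw hm => ?_⟩
    simp only [lang, Language.mem_one] at hm
    simp [hm] at hw
  | letter a =>
    refine ⟨2, Or.inr fun w hw hm => ?_⟩
    simp only [lang] at hm
    have : w = [a] := hm
    simp [this] at hw
  | neg P ih =>
    obtain ⟨N, hN⟩ := ih h
    refine ⟨N, hN.symm.imp (fun hh w hw => hh w hw) (fun hh w hw hn => hn (hh w hw))⟩
  | star P ih => simp [height] at h
  | add P Q ihP ihQ =>
    simp only [height, Nat.max_eq_zero_iff] at h
    obtain ⟨N, hN⟩ := ihP h.1
    obtain ⟨M, hM⟩ := ihQ h.2
    refine ⟨max N M, ?_⟩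
    rcases hN with hN | hN
    · exact Or.inl fun w hw =>
        (Language.mem_add _ _ _).2 (Or.inl (hN w (le_trans (le_max_left _ _) hw)))
    · rcases hM with hM | hM
      · exact Or.inl fun w hw =>
          (Language.mem_add _ _ _).2 (Or.inr (hM w (le_trans (le_max_right _ _) hw)))
      · refine Or.inr fun w hw hm => ?_
        rcases (Language.mem_add _ _ _).1 hm with hm | hm
        · exact hN w (le_trans (le_max_left _ _) hw) hm
        · exact hM w (le_trans (le_max_right _ _) hw) hm
  | mul P Q ihP ihQ =>
    simp only [height, Nat.max_eq_zero_iff] at h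
    obtain ⟨N, hN⟩ := ihP h.1
    obtain ⟨M, hM⟩ := ihQ h.2
    by_cases hP : ∃ u, u ∈ P.lang
    swap
    · exact ⟨0, Or.inr fun w _ hm => by
        obtain ⟨u, hu, -⟩ := Language.mem_mul.1 hm
        exact hP ⟨u, hu⟩⟩
    by_cases hQ : ∃ v, v ∈ Q.lang
    swap
    · exact ⟨0, Or.inr fun w _ hm => by
        obtain ⟨u, -, v, hv, -⟩ := Language.mem_mul.1 hm
        exact hQ ⟨v, hv⟩⟩
    obtain ⟨u, hu⟩ := hP
    obtain ⟨v, hv⟩ := hQ
    have key : ∀ a b : List Unit, a.length = b.length → a = b := by
      intro a b hab
      exact List.ext_getElem hab fun i _ _ => Subsingleton.elim _ _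
    rcases hN with hN | hN
    · refine ⟨N + v.length, Or.inl fun w hw => Language.mem_mul.2 ?_⟩
      refine ⟨List.replicate (w.length - v.length) (), hN _ (by simp; omega), v, hv, ?_⟩
      exact key _ _ (by simp; omega)
    · rcases hM with hM | hM
      · refine ⟨M + u.length, Or.inl fun w hw => Language.mem_mul.2 ?_⟩
        refine ⟨u, hu, List.replicate (w.length - u.length) (), hM _ (by simp; omega), ?_⟩
        exact key _ _ (by simp; omega)
      · refine ⟨N + M, Or.inr fun w hw hm => ?_⟩
        obtain ⟨a, ha, b, hb, rfl⟩ := Language.mem_mul.1 hm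
        simp only [List.length_append] at hw
        by_cases hA : N ≤ a.length
        · exact hN a hA ha
        · exact hM b (by omega) hb

/-- Words of even length over one letter: not of height zero. -/
theorem even_length_height (P : Expr Unit)
    (hP : P.lang = {w : List Unit | Even w.length}) : 1 ≤ P.height := by
  by_contra h
  obtain ⟨N, hN⟩ := eventually_const P (by omega)
  rw [hP] at hN
  rcases hN with hN | hN
  · have := hN (List.replicate (2 * N + 1) ()) (by simp; omega)
    have h2 : Even (List.replicate (2 * N + 1) ()).length := this
    simp at h2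
  · refine hN (List.replicate (2 * N) ()) (by simp; omega) ?_
    show Even (List.replicate (2 * N) ()).length
    simp

/-- The language of words of even length is accepted by a two-state automaton. -/
theorem even_length_regular :
    Language.IsRegular ({w : List Unit | Even w.length} : Language Unit) := by
  refine ⟨Bool, inferInstance, ⟨fun s _ => !s, true, {true}⟩, ?_⟩
  ext w
  have h : ∀ (w : List Unit) (s : Bool),
      (DFA.mk (fun s (_ : Unit) => !s) true ({true} : Set Bool)).evalFrom s w
        = if Even w.length then s else !s := by
    intro w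
    induction w with
    | nil => intro s; simp
    | cons a w ih =>
      intro s
      rw [DFA.evalFrom_cons, ih]
      by_cases hw : Even w.length <;> simp [hw, Nat.even_add_one]
  rw [DFA.mem_accepts]
  show _ ∈ ({true} : Set Bool) ↔ Even w.length
  rw [DFA.eval, h]
  by_cases hw : Even w.length <;> simp [hw]

/-- Some regular language has generalized star height at least one. -/
theorem exists_regular_height_pos :
    ∃ L : Language Unit, L.IsRegular ∧ ∀ P : Expr Unit, P.lang = L → 1 ≤ P.height :=
  ⟨_, even_length_regular, even_length_height⟩

end Expr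

end Vale.Agent.P329.H36
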