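import Mathlib

/-!
# Cyclic covers of elementary abelian 2-groups

For `p = 2 * m + 1` with `4 ≤ m` and `3 ≤ q` there are sets `R a`, `S b` in
`ZMod q × ZMod p` and a colouring `X` of that group such that `R a + S b` is exactly
the colour class of `xor a b`. By the Chinese remainder theorem this gives, for each
`D`, such covers of `Fin D → Bool` in cyclic groups with arbitrarily large prime factors.
-/

namespace Vale.Agent.P329.Cover

/-! ### The layers, in natural numbers -/

/-- `k - y` modulo `2 * m + 1`, for representatives. -/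
def dif (m k y : ℕ) : ℕ := if y ≤ k then k - y else k + (2 * m + 1) - y

/-- The long interval of bit `a`. -/
def Long (m : ℕ) (a : Bool) (i : ℕ) : Prop :=
  if a then m + 3 ≤ i ∧ i ≤ 2 * m else 2 ≤ i ∧ i ≤ m - 1

/-- The two short values of bit `b`. -/
def short₁ (m : ℕ) (b : Bool) : ℕ := if b then 1 else m

/-- The two short values of bit `b`. -/
def short₂ (m : ℕ) (b : Bool) : ℕ := if b then 2 * m else m + 2

/-- The generic value on the left. -/
def uVal (a : Bool) : ℕ := if a then 1 else 0

/-- The generic value on the right. -/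
def vVal (m : ℕ) (b : Bool) : ℕ := if b then m + 1 else 0

/-- The colour on the special layer. -/
def colourZero (m k : ℕ) : Bool := decide (1 ≤ k ∧ k ≤ m + 1)

/-- The colour on every other layer. -/
def colourGen (m k : ℕ) : Bool := decide (k = 1 ∨ k = m + 1 ∨ m + 3 ≤ k)

lemma layer_gen {m k : ℕ} (hm : 4 ≤ m) (hk : k < 2 * m + 1) (a b : Bool) :
    (Long m a (dif m k (vVal m b)) ∨ dif m k (uVal a) = short₁ m b ∨
      dif m k (uVal a) = short₂ m b ∨ dif m k (vVal m b) = uVal a) ↔
      colourGen m k = xor a b := by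
  cases a <;> cases b <;>
    simp [Long, dif, short₁, short₂, uVal, vVal, colourGen] <;> (try split_ifs) <;>
      refine ⟨fun h => ?_, fun h => ?_⟩ <;> omega

lemma layer_zero {m k : ℕ} (hm : 4 ≤ m) (hk : k < 2 * m + 1) (a b : Bool) :
    (Long m a (dif m k (short₁ m b)) ∨ Long m a (dif m k (short₂ m b)) ∨
      dif m k (vVal m b) = uVal a) ↔ colourZero m k = xor a b := by
  cases a <;> cases b <;>
    simp [Long, dif, short₁, short₂, uVal, vVal, colourZero] <;> (try split_ifs) <;>
      refine ⟨fun h => ?_, fun h => ?_⟩ <;> omega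

/-! ### The group `ZMod q × ZMod p` -/

variable {q : ℕ} (m : ℕ)

/-- The left sets. -/
def left (a : Bool) : Set (ZMod q × ZMod (2 * m + 1)) :=
  {x | if x.1 = 0 then Long m a x.2.val else x.2.val = uVal a}

/-- The right sets. -/
def right (b : Bool) : Set (ZMod q × ZMod (2 * m + 1)) :=
  {x | if x.1 = 0 then x.2.val = short₁ m b ∨ x.2.val = short₂ m b else x.2.val = vVal m b}

/-- The colouring. -/
def colour (z : ZMod q × ZMod (2 * m + 1)) : Bool :=
  if z.1 = 0 then colourZero m z.2.val else colourGen m z.2.val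

variable {m}

lemma val_sub_eq (x y : ZMod (2 * m + 1)) : (x - y).val = dif m x.val y.val := by
  have hx := x.val_lt
  have hy := y.val_lt
  have hlt : dif m x.val y.val < 2 * m + 1 := by unfold dif; split_ifs <;> omega
  have : x - y = ((dif m x.val y.val : ℕ) : ZMod (2 * m + 1)) := by
    unfold dif
    split_ifs with h
    · rw [Nat.cast_sub h]; simp
    · rw [Nat.cast_sub (by omega), Nat.cast_add, ZMod.natCast_self]; simp
  rw [this, ZMod.val_natCast, Nat.mod_eq_of_lt hlt]

lemma exists_nonzero_pair (hq : 3 ≤ q) (t : ZMod q) : ∃ s : ZMod q, s ≠ 0 ∧ t - s ≠ 0 := by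
  have : Fact (1 < q) := ⟨by omega⟩
  by_contra h
  push Not at h
  have h1 : t - 1 = 0 := h 1 one_ne_zero
  have h2 : ((2 : ℕ) : ZMod q) ≠ 0 := fun e => by
    rw [ZMod.natCast_eq_zero_iff] at e
    have := Nat.le_of_dvd (by omega) e
    omega
  have h3 := h _ h2
  rw [sub_eq_zero] at h1 h3
  rw [h1] at h3
  have h4 : ((1 : ℕ) : ZMod q) = ((2 : ℕ) : ZMod q) := by simpa using h3
  rw [ZMod.natCast_eq_natCast_iff', Nat.mod_eq_of_lt (by omega),
    Nat.mod_eq_of_lt (by omega)] at h4
  omega

/-- The cover of `Bool`. -/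
theorem exists_sum_iff (hm : 4 ≤ m) (hq : 3 ≤ q) (a b : Bool)
    (z : ZMod q × ZMod (2 * m + 1)) :
    (∃ r ∈ left m a, ∃ s ∈ right m b, r + s = z) ↔ colour m z = xor a b := by
  obtain ⟨t, x⟩ := z
  have hk := x.val_lt
  have mkval : ∀ i : ℕ, i < 2 * m + 1 → ((i : ℕ) : ZMod (2 * m + 1)).val = i := fun i hi => by
    rw [ZMod.val_natCast, Nat.mod_eq_of_lt hi]
  have hu : uVal a < 2 * m + 1 := by unfold uVal; split_ifs <;> omega
  have hv : vVal m b < 2 * m + 1 := by unfold vVal; split_ifs <;> omega
  have hs₁ : short₁ m b < 2 * m + 1 := by unfold short₁; split_ifs <;> omega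
  have hs₂ : short₂ m b < 2 * m + 1 := by unfold short₂; split_ifs <;> omega
  -- a witness is given by its right summand
  have key : ∀ (t' : ZMod q) (j : ℕ), j < 2 * m + 1 →
      ((t', (j : ZMod (2 * m + 1))) ∈ right m b) →
      (if t - t' = 0 then Long m a (dif m x.val j) else dif m x.val j = uVal a) →
      ∃ r ∈ left m a, ∃ s ∈ right m b, r + s = (t, x) := by
    intro t' j hj hs hr
    refine ⟨(t - t', x - (j : ZMod (2 * m + 1))), ?_, (t', (j : ZMod (2 * m + 1))), hs,
      by simp⟩
    simp only [left, Set.mem_ofPred_eq, val_sub_eq, mkval j hj]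
    exact hr
  constructor
  · rintro ⟨r, hr, s, hs, hrs⟩
    have e : r = (t, x) - s := eq_sub_of_add_eq hrs
    subst e
    simp only [left, Set.mem_ofPred_eq, Prod.fst_sub, Prod.snd_sub, val_sub_eq] at hr
    simp only [right, Set.mem_ofPred_eq] at hs
    by_cases ht : t = 0
    · rw [colour, if_pos ht, ← layer_zero hm hk a b]
      by_cases hs0 : s.1 = 0
      · rw [if_pos hs0] at hs
        rw [if_pos (by rw [ht, hs0, sub_zero])] at hr
        rcases hs with h | h <;> rw [h] at hr
        · exact Or.inl hr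
        · exact Or.inr (Or.inl hr)
      · rw [if_neg hs0] at hs
        rw [if_neg (by rw [ht, zero_sub, neg_eq_zero]; exact hs0)] at hr
        rw [hs] at hr
        exact Or.inr (Or.inr hr)
    · rw [colour, if_neg ht, ← layer_gen hm hk a b]
      by_cases hs0 : s.1 = 0
      · rw [if_pos hs0] at hs
        rw [if_neg (by rw [hs0, sub_zero]; exact ht)] at hr
        have h' : dif m x.val (uVal a) = s.2.val := by
          rw [← hr]
          have := s.2.val_lt
          unfold dif; split_ifs <;> omega
        rw [h']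
        rcases hs with h | h
        · exact Or.inr (Or.inl h)
        · exact Or.inr (Or.inr (Or.inl h))
      · rw [if_neg hs0] at hs
        rw [hs] at hr
        split_ifs at hr
        · exact Or.inl hr
        · exact Or.inr (Or.inr (Or.inr hr))
  · intro h
    by_cases ht : t = 0
    · rw [colour, if_pos ht, ← layer_zero hm hk a b] at h
      rcases h with h | h | h
      · exact key 0 _ hs₁ (by simp [right, mkval _ hs₁]) (by rw [if_pos (by simp [ht])]; exact h)
      · exact key 0 _ hs₂ (by simp [right, mkval _ hs₂]) (by rw [if_pos (by simp [ht])]; exact h)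
      · obtain ⟨s, hs, hts⟩ := exists_nonzero_pair hq t
        exact key s _ hv (by simp [right, mkval _ hv, hs]) (by rw [if_neg hts]; exact h)
    · rw [colour, if_neg ht, ← layer_gen hm hk a b] at h
      rcases h with h | h | h | h
      · exact key t _ hv (by simp [right, mkval _ hv, ht]) (by rw [if_pos (sub_self t)]; exact h)
      · exact key 0 _ hs₁ (by simp [right, mkval _ hs₁])
          (by rw [if_neg (by simpa using ht), ← h]; unfold dif; split_ifs <;> omega)
      · exact key 0 _ hs₂ (by simp [right, mkval _ hs₂])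
          (by rw [if_neg (by simpa using ht), ← h]; unfold dif; split_ifs <;> omega)
      · obtain ⟨s, hs, hts⟩ := exists_nonzero_pair hq t
        exact key s _ hv (by simp [right, mkval _ hv, hs]) (by rw [if_neg hts]; exact h)

/-- For every `D` and `N`: a cover of `Fin D → Bool` in a cyclic group all of whose prime
factors exceed `N`. -/
theorem exists_cover (D N : ℕ) :
    ∃ d : ℕ, 0 < d ∧ (∀ p : ℕ, p.Prime → p ∣ d → N < p) ∧
      ∃ (R S : (Fin D → Bool) → Set (ZMod d)) (X : ZMod d → Fin D → Bool),
        ∀ a b z, (∃ r ∈ R a, ∃ s ∈ S b, r + s = z) ↔ X z = fun i => xor (a i) (b i) := by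
  classical
  obtain ⟨P, hP, hPinj⟩ : ∃ P : Fin D × Bool → ℕ,
      (∀ x, (P x).Prime ∧ N < P x ∧ 9 ≤ P x) ∧ Function.Injective P := by
    have hinf : {p : ℕ | p.Prime ∧ N < p ∧ 9 ≤ p}.Infinite := by
      refine Set.infinite_of_forall_exists_gt fun c => ?_
      obtain ⟨p, hp, hpp⟩ := Nat.exists_infinite_primes (c + N + 10)
      exact ⟨p, ⟨hpp, by omega, by omega⟩, by omega⟩
    let e := hinf.natEmbedding
    let f := (Fintype.equivFin (Fin D × Bool))
    exact ⟨fun x => (e (f x).val).1, fun x => (e (f x).val).2,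
      fun x y h => f.injective (Fin.ext (e.injective (Subtype.ext h)))⟩
  have hco : Pairwise (Function.onFun Nat.Coprime P) := fun x y hne =>
    (Nat.coprime_primes (hP x).1 (hP y).1).2 fun h => hne (hPinj h)
  -- write the larger modulus of each pair as `2 * m + 1`
  choose m hm using fun i : Fin D =>
    ((hP (i, true)).1.eq_two_or_odd').resolve_left (by have := (hP (i, true)).2.2; omega)
  have hm4 : ∀ i, 4 ≤ m i := fun i => by have := (hP (i, true)).2.2; have := hm i; omega
  refine ⟨∏ x, P x, Finset.prod_pos fun x _ => (hP x).1.pos, fun p hp hdvd => ?_, ?_⟩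
  · obtain ⟨x, -, hx⟩ := (Prime.dvd_finsetProd_iff hp.prime _).1 hdvd
    rw [(Nat.prime_dvd_prime_iff_eq hp (hP x).1).1 hx]
    exact (hP x).2.1
  let φ : ZMod (∏ x, P x) ≃+* ∀ x, ZMod (P x) := ZMod.prodEquivPi P hco
  let cast : ∀ i, ZMod (P (i, true)) ≃+* ZMod (2 * m i + 1) := fun i =>
    ZMod.ringEquivCongr (hm i)
  let π : ∀ i, ZMod (∏ x, P x) → ZMod (P (i, false)) × ZMod (2 * m i + 1) :=
    fun i z => (φ z (i, false), cast i (φ z (i, true)))
  have hsurj : ∀ g : ∀ i, ZMod (P (i, false)) × ZMod (2 * m i + 1),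
      ∃ z, ∀ i, π i z = g i := by
    intro g
    let w : ∀ x, ZMod (P x) := fun x => match x with
      | (i, false) => (g i).1
      | (i, true) => (cast i).symm (g i).2
    exact ⟨φ.symm w, fun i => by simp [π, w]⟩
  have hadd : ∀ i y z, π i (y + z) = π i y + π i z := fun i y z => by simp [π]
  have hinj : ∀ y z, (∀ i, π i y = π i z) → y = z := by
    intro y z h
    refine φ.injective (funext fun x => ?_)
    obtain ⟨i, _ | _⟩ := x
    · exact congrArg Prod.fst (h i)
    · exact (cast i).injective (congrArg Prod.snd (h i))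
  refine ⟨fun a => {z | ∀ i, π i z ∈ left (m i) (a i)},
    fun b => {z | ∀ i, π i z ∈ right (m i) (b i)}, fun z i => colour (m i) (π i z),
    fun a b z => ?_⟩
  have hiff := fun i => exists_sum_iff (hm4 i)
    (by have := (hP (i, false)).2.2; omega : 3 ≤ P (i, false)) (a i) (b i) (π i z)
  constructor
  · rintro ⟨r, hr, s, hs, rfl⟩
    funext i
    exact (hiff i).1 ⟨_, hr i, _, hs i, (hadd i r s).symm⟩
  · intro h
    choose r hr s hs hrs using fun i => (hiff i).2 (congrFun h i)
    obtain ⟨r', hr'⟩ := hsurj r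
    obtain ⟨s', hs'⟩ := hsurj s
    exact ⟨r', fun i => by rw [hr']; exact hr i, s', fun i => by rw [hs']; exact hs i,
      hinj _ _ fun i => by rw [hadd, hr', hs', hrs]⟩

end Vale.Agent.P329.Cover
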