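import Mathlib
import Vale.Agent.P329.Basic36

/-!
Closure properties of the classes of languages of generalized star height at most `k`.
-/

namespace Vale.Agent.P329.Grp

open H36 Computability

variable {α : Type}

/-- `L` is denoted by a generalized expression of star height at most `k`. -/
def Ht (k : ℕ) (L : Language α) : Prop := ∃ P : Expr α, P.height ≤ k ∧ P.lang = L

/-- The language of the words with property `p`. -/
def lg (p : List α → Prop) : Language α := ({w | p w} : Set (List α))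

@[simp] theorem mem_lg (p : List α → Prop) (w : List α) : w ∈ lg p ↔ p w := Iff.rfl

variable {k : ℕ} {L M : Language α}

theorem Ht.of_iff (h : Ht k L) (e : ∀ w, w ∈ M ↔ w ∈ L) : Ht k M := by
  have : M = L := Language.ext e
  rwa [this]

theorem Ht.mono {l : ℕ} (h : Ht k L) (hkl : k ≤ l) : Ht l L := by
  obtain ⟨P, hP, e⟩ := h
  exact ⟨P, hP.trans hkl, e⟩

theorem ht_zero : Ht k (0 : Language α) := ⟨.zero, Nat.zero_le _, rfl⟩

theorem ht_one : Ht k (1 : Language α) := ⟨.one, Nat.zero_le _, rfl⟩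

theorem ht_letter (a : α) : Ht k ({[a]} : Language α) := ⟨.letter a, Nat.zero_le _, rfl⟩

theorem Ht.add (h : Ht k L) (g : Ht k M) : Ht k (L + M) := by
  obtain ⟨P, hP, rfl⟩ := h
  obtain ⟨Q, hQ, rfl⟩ := g
  exact ⟨.add P Q, max_le hP hQ, rfl⟩

theorem Ht.mul (h : Ht k L) (g : Ht k M) : Ht k (L * M) := by
  obtain ⟨P, hP, rfl⟩ := h
  obtain ⟨Q, hQ, rfl⟩ := g
  exact ⟨.mul P Q, max_le hP hQ, rfl⟩

theorem Ht.compl (h : Ht k L) : Ht k Lᶜ := by
  obtain ⟨P, hP, rfl⟩ := h
  exact ⟨.neg P, hP, rfl⟩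

theorem Ht.star (h : Ht k L) : Ht (k + 1) L∗ := by
  obtain ⟨P, hP, rfl⟩ := h
  exact ⟨.star P, Nat.succ_le_succ hP, rfl⟩

theorem Ht.pow (h : Ht k L) : ∀ n : ℕ, Ht k (L ^ n)
  | 0 => by rw [pow_zero]; exact ht_one
  | n + 1 => by rw [pow_succ]; exact (Ht.pow h n).mul h

theorem mem_compl_iff' (L : Language α) (w : List α) : w ∈ Lᶜ ↔ w ∉ L := Iff.rfl

theorem Ht.inter (h : Ht k L) (g : Ht k M) :
    Ht k (lg fun w => w ∈ L ∧ w ∈ M) := by
  refine (h.compl.add g.compl).compl.of_iff fun w => ?_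
  show (w ∈ L ∧ w ∈ M) ↔ w ∈ (Lᶜ + Mᶜ)ᶜ
  rw [mem_compl_iff', Language.mem_add, mem_compl_iff', mem_compl_iff']
  tauto

theorem ht_univ : Ht k (lg fun _ : List α => True) :=
  (ht_zero (α := α)).compl.of_iff fun w => by
    rw [mem_compl_iff']
    exact ⟨fun _ h => h, fun _ => trivial⟩

theorem ht_exists_finset {ι : Type*} (s : Finset ι) (L : ι → Language α)
    (h : ∀ i ∈ s, Ht k (L i)) : Ht k (lg fun w => ∃ i ∈ s, w ∈ L i) := by
  classical
  induction s using Finset.induction_on with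
  | empty =>
    refine ht_zero.of_iff fun w => ⟨?_, fun h => h.elim⟩
    rintro ⟨i, hi, -⟩
    simp at hi
  | @insert a s _ ih =>
    refine ((h a (Finset.mem_insert_self _ _)).add
      (ih fun i hi => h i (Finset.mem_insert_of_mem hi))).of_iff fun w => ?_
    rw [Language.mem_add]
    show (∃ i ∈ insert a s, w ∈ L i) ↔ w ∈ L a ∨ ∃ i ∈ s, w ∈ L i
    simp

theorem ht_exists {ι : Type*} [Fintype ι] (L : ι → Language α) (h : ∀ i, Ht k (L i)) :
    Ht k (lg fun w => ∃ i, w ∈ L i) := by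
  refine (ht_exists_finset Finset.univ L fun i _ => h i).of_iff fun w => ?_
  show (∃ i, w ∈ L i) ↔ ∃ i ∈ Finset.univ, w ∈ L i
  simp

theorem ht_forall {ι : Type*} [Fintype ι] (L : ι → Language α) (h : ∀ i, Ht k (L i)) :
    Ht k (lg fun w => ∀ i, w ∈ L i) := by
  refine (ht_exists (fun i => (L i)ᶜ) fun i => (h i).compl).compl.of_iff fun w => ?_
  show (∀ i, w ∈ L i) ↔ ¬ ∃ i, ¬ w ∈ L i
  simp

theorem ht_cond (c : Prop) (h : Ht k L) :
    Ht k (lg fun w => c ∧ w ∈ L) := by
  by_cases hc : c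
  · exact h.of_iff fun w => ⟨fun x => x.2, fun x => ⟨hc, x⟩⟩
  · exact ht_zero.of_iff fun w => ⟨fun x => hc x.1, fun x => x.elim⟩

theorem ht_head (a : α) : Ht k (lg fun w : List α => w.head? = some a) := by
  refine ((ht_letter a).mul ht_univ).of_iff fun w => ?_
  rw [Language.mem_mul]
  constructor
  · intro h
    have h' : w.head? = some a := h
    cases w with
    | nil => simp at h'
    | cons b w =>
      simp at h'
      subst h'
      exact ⟨[b], rfl, w, trivial, rfl⟩
  · rintro ⟨x, hx, y, -, rfl⟩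
    have hx' : x = [a] := hx
    subst hx'
    rfl

theorem ht_last (a : α) : Ht k (lg fun w : List α => w.getLast? = some a) := by
  refine (ht_univ.mul (ht_letter a)).of_iff fun w => ?_
  rw [Language.mem_mul]
  constructor
  · intro h
    have h' : w.getLast? = some a := h
    obtain ⟨u, rfl⟩ := List.getLast?_eq_some_iff.1 h'
    exact ⟨u, trivial, [a], rfl, rfl⟩
  · rintro ⟨x, -, y, hy, rfl⟩
    have hy' : y = [a] := hy
    subst hy'
    show (x ++ [a]).getLast? = some a
    simp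

theorem ht_mem (a : α) : Ht k (lg fun w : List α => a ∈ w) := by
  refine ((ht_univ.mul (ht_letter a)).mul ht_univ).of_iff fun w => ?_
  constructor
  · intro h
    have h' : a ∈ w := h
    obtain ⟨s, t, rfl⟩ := List.append_of_mem h'
    refine Language.mem_mul.2 ⟨s ++ [a], Language.append_mem_mul trivial rfl, t, trivial, ?_⟩
    simp
  · intro h
    obtain ⟨x, hx, t, -, rfl⟩ := Language.mem_mul.1 h
    obtain ⟨s, -, y, hy, rfl⟩ := Language.mem_mul.1 hx
    have hy' : y = [a] := hy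
    subst hy'
    show a ∈ s ++ [a] ++ t
    simp

variable [Fintype α]

theorem ht_only (P : α → Prop) : Ht k (lg fun w : List α => ∀ b ∈ w, P b) := by
  refine (ht_exists (fun b => lg fun w => ¬ P b ∧ w ∈ lg fun v : List α => b ∈ v)
    fun b => ht_cond _ (ht_mem b)).compl.of_iff fun w => ?_
  show (∀ b ∈ w, P b) ↔ ¬ ∃ b, ¬ P b ∧ b ∈ w
  grind

end Vale.Agent.P329.Grp
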