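import Mathlib
import Vale.Agent.P329.GrpBasic

/-!
A partial automaton on `ZMod p` (`p` prime) in which letters act as translations, each nonzero
translation being undefined somewhere, has star-free path languages.
-/

namespace Vale.Agent.P329.Grp

variable {α : Type} {p : ℕ} (f : α → ZMod p) (E : ZMod p → α → Prop)

/-- All transitions of the path of `w` from `q` are allowed. -/
def Ok : ZMod p → List α → Prop
  | _, [] => True
  | q, b :: w => E q b ∧ Ok (q + f b) w

/-- The translation of a word. -/
def tr (w : List α) : ZMod p := (w.map f).sum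

@[simp] theorem tr_nil : tr f ([] : List α) = 0 := by simp [tr]
@[simp] theorem tr_cons (b : α) (w : List α) : tr f (b :: w) = f b + tr f w := by simp [tr]
@[simp] theorem tr_append (u v : List α) : tr f (u ++ v) = tr f u + tr f v := by simp [tr]

@[simp] theorem ok_nil (q : ZMod p) : Ok f E q [] ↔ True := Iff.rfl
@[simp] theorem ok_cons (q : ZMod p) (b : α) (w : List α) :
    Ok f E q (b :: w) ↔ E q b ∧ Ok f E (q + f b) w := Iff.rfl

theorem ok_append (u v : List α) :
    ∀ q, Ok f E q (u ++ v) ↔ Ok f E q u ∧ Ok f E (q + tr f u) v := by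
  induction u with
  | nil => simp
  | cons b u ih =>
    intro q
    simp [ih, add_assoc, and_assoc]

/-- The words that label an allowed path from `q` to `q'`. -/
def Pth (q q' : ZMod p) : Language α := lg fun w => Ok f E q w ∧ q + tr f w = q'

variable [NeZero p]

/-- The set of states at which `w` is defined. -/
noncomputable def dom (w : List α) : Finset (ZMod p) :=
  open Classical in Finset.univ.filter fun q => Ok f E q w

/-- The image of `w`. -/
noncomputable def img (w : List α) : Finset (ZMod p) := (dom f E w).image (· + tr f w)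

theorem mem_dom {w : List α} {q : ZMod p} : q ∈ dom f E w ↔ Ok f E q w := by
  simp [dom]

theorem mem_img {w : List α} {s : ZMod p} : s ∈ img f E w ↔ Ok f E (s - tr f w) w := by
  simp only [img, Finset.mem_image, mem_dom]
  constructor
  · rintro ⟨q, hq, rfl⟩
    simpa using hq
  · exact fun h => ⟨_, h, by simp⟩

theorem dom_nil : dom f E ([] : List α) = Finset.univ := by
  ext q; simp [mem_dom]

theorem img_nil : img f E ([] : List α) = Finset.univ := by
  ext q; simp [mem_img]

theorem card_img (w : List α) : (img f E w).card = (dom f E w).card :=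
  Finset.card_image_of_injective _ (add_left_injective _)

theorem dom_append_subset (u v : List α) : dom f E (u ++ v) ⊆ dom f E u := fun q hq => by
  rw [mem_dom, ok_append] at *
  exact hq.1

theorem img_append_subset (u v : List α) : img f E (u ++ v) ⊆ img f E v := fun s hs => by
  rw [mem_img, ok_append] at *
  convert hs.2 using 2
  simp [tr_append]; ring

/-- The effect on domains of appending a letter. -/
noncomputable def stepDom (D : Finset (ZMod p)) (τ : ZMod p) (b : α) : Finset (ZMod p) :=
  open Classical in D.filter fun q => E (q + τ) b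

/-- The effect on images of prepending a letter. -/
noncomputable def stepImg (D : Finset (ZMod p)) (τ : ZMod p) (b : α) : Finset (ZMod p) :=
  open Classical in (D.filter fun s => E (s - f b) b).image (· + τ)

theorem dom_snoc (u : List α) (b : α) :
    dom f E (u ++ [b]) = stepDom E (dom f E u) (tr f u) b := by
  ext q
  simp [mem_dom, stepDom, ok_append]

theorem img_cons (v : List α) (b : α) :
    img f E (b :: v) = stepImg f E (dom f E v) (tr f v) b := by
  ext s
  simp only [mem_img, stepImg, Finset.mem_image, Finset.mem_filter, mem_dom, ok_cons, tr_cons]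
  constructor
  · rintro ⟨h1, h2⟩
    refine ⟨s - tr f v, ⟨?_, ?_⟩, by ring⟩
    · convert h2 using 1; ring
    · convert h1 using 1; ring
  · rintro ⟨q, ⟨h2, h1⟩, rfl⟩
    exact ⟨by convert h1 using 1; ring, by convert h2 using 1; ring⟩

/-- The domain, shifted by the first letter, of a word extended on both sides by one letter. -/
noncomputable def stepBoth (D : Finset (ZMod p)) (τ : ZMod p) (b c : α) : Finset (ZMod p) :=
  open Classical in D.filter fun s => E (s - f b) b ∧ E (s + τ) c

theorem card_dom_both (v : List α) (b c : α) :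
    (dom f E (b :: (v ++ [c]))).card = (stepBoth f E (dom f E v) (tr f v) b c).card := by
  rw [← Finset.card_image_of_injective (dom f E (b :: (v ++ [c]))) (add_left_injective (f b))]
  congr 1
  ext s
  simp only [Finset.mem_image, stepBoth, Finset.mem_filter, mem_dom, ok_cons, ok_append]
  constructor
  · rintro ⟨q, ⟨h1, h2, h3, -⟩, rfl⟩
    exact ⟨h2, by simpa using h1, h3⟩
  · rintro ⟨h2, h1, h3⟩
    refine ⟨s - f b, ?_, sub_add_cancel _ _⟩
    rw [sub_add_cancel]
    exact ⟨h1, h2, h3, trivial⟩

/-- A nonempty proper subset of `ZMod p` has no nonzero period. -/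
theorem eq_of_shift_eq [Fact p.Prime] {D : Finset (ZMod p)} {τ τ' : ZMod p} (h0 : D.Nonempty)
    (h1 : D ≠ Finset.univ) (h : D.image (· + τ) = D.image (· + τ')) : τ = τ' := by
  by_contra hne
  obtain ⟨d, hd⟩ := h0
  have hs : ∀ q ∈ D, q + (τ - τ') ∈ D := by
    intro q hq
    have : q + τ ∈ D.image (· + τ') := h ▸ Finset.mem_image_of_mem _ hq
    obtain ⟨r, hr, e⟩ := Finset.mem_image.1 this
    have : q + (τ - τ') = r := by linear_combination -e
    rwa [this]
  have hn : ∀ n : ℕ, d + n * (τ - τ') ∈ D := by
    intro n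
    induction n with
    | zero => simpa using hd
    | succ n ih =>
      convert hs _ ih using 1
      push_cast; ring
  refine h1 (Finset.eq_univ_iff_forall.2 fun q => ?_)
  convert hn ((q - d) / (τ - τ')).val using 1
  rw [ZMod.natCast_zmod_val, div_mul_cancel₀ _ (sub_ne_zero.2 hne)]
  ring

variable [Fintype α] [Fact p.Prime]

theorem ht_cell_univ (hb : ∀ b, f b ≠ 0 → ∃ q, ¬ E q b) (τ : ZMod p) :
    Ht 0 (lg fun w => dom f E w = Finset.univ ∧ tr f w = τ) := by
  have hfull : ∀ w : List α, dom f E w = Finset.univ ↔ ∀ b ∈ w, ∀ q, E q b := by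
    intro w
    rw [Finset.eq_univ_iff_forall]
    simp only [mem_dom]
    induction w with
    | nil => simp
    | cons b w ih =>
      simp only [ok_cons, List.forall_mem_cons, forall_and]
      refine and_congr_right fun _ => ?_
      rw [← ih]
      exact ⟨fun h q => by simpa using h (q - f b), fun h q => h _⟩
  have htr : ∀ w : List α, (∀ b ∈ w, ∀ q, E q b) → tr f w = 0 := by
    intro w
    induction w with
    | nil => simp
    | cons b w ih =>
      intro h
      rw [tr_cons, ih fun c hc => h c (List.mem_cons_of_mem _ hc), add_zero]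
      by_contra hne
      obtain ⟨q, hq⟩ := hb b hne
      exact hq (h b List.mem_cons_self q)
  refine (ht_cond (τ = 0) (ht_only fun b : α => ∀ q, E q b)).of_iff fun w => ?_
  simp only [mem_lg, hfull]
  exact ⟨fun h => ⟨by rw [← h.2, htr w h.1], h.1⟩, fun h => ⟨h.2, by rw [h.1, htr w h.2]⟩⟩

section step

variable {k : ℕ}

theorem ht_prefix (D : Finset (ZMod p)) (hD : D ≠ Finset.univ)
    (ih : ∀ D', D.card < D'.card → ∀ τ', Ht 0 (lg fun w => dom f E w = D' ∧ tr f w = τ')) :
    ∃ L : Language α, Ht 0 L ∧ (∀ w ∈ L, dom f E w ⊆ D) ∧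
      ∀ w, dom f E w = D → w ∈ L := by
  refine ⟨lg fun w => ∃ x : Finset (ZMod p) × ZMod p × α, w ∈ lg fun w =>
      (D.card < x.1.card ∧ stepDom E x.1 x.2.1 x.2.2 = D) ∧
        w ∈ (lg fun u => dom f E u = x.1 ∧ tr f u = x.2.1) * {[x.2.2]} * lg fun _ => True,
      ht_exists _ fun x => ?_, ?_, ?_⟩
  · by_cases hc : D.card < x.1.card ∧ stepDom E x.1 x.2.1 x.2.2 = D
    · exact ht_cond _ (((ih _ hc.1 _).mul (ht_letter _)).mul ht_univ)
    · exact ht_zero.of_iff fun w => ⟨fun h => hc h.1, fun h => h.elim⟩
  · rintro w ⟨⟨D', τ', b⟩, ⟨-, hs⟩, hw⟩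
    obtain ⟨y, hy, t, -, rfl⟩ := Language.mem_mul.1 hw
    obtain ⟨u, ⟨hu1, hu2⟩, z, hz, rfl⟩ := Language.mem_mul.1 hy
    have hz' : z = [b] := hz
    subst hz'
    refine (dom_append_subset f E _ _).trans (le_of_eq ?_)
    rw [dom_snoc, hu1, hu2]
    exact hs
  · intro w hw
    suffices ∀ u v : List α, dom f E u = D → ∃ x : Finset (ZMod p) × ZMod p × α,
        (D.card < x.1.card ∧ stepDom E x.1 x.2.1 x.2.2 = D) ∧
        u ++ v ∈ (lg fun u => dom f E u = x.1 ∧ tr f u = x.2.1) * {[x.2.2]} * lg fun _ => True by
      obtain ⟨x, hx⟩ := this w [] hw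
      exact ⟨x, hx.1, by simpa using hx.2⟩
    intro u
    induction u using List.reverseRecOn with
    | nil => exact fun v h => (hD (by rw [← h, dom_nil])).elim
    | append_singleton u b ihu =>
      intro v h
      by_cases he : dom f E u = D
      · simpa using ihu (b :: v) he
      · refine ⟨(dom f E u, tr f u, b), ⟨Finset.card_lt_card
          (Finset.ssubset_iff_subset_ne.2 ⟨h ▸ dom_append_subset f E u [b], Ne.symm he⟩), ?_⟩, ?_⟩
        · rw [← h, dom_snoc]
        · exact Language.append_mem_mul (Language.append_mem_mul ⟨rfl, rfl⟩ rfl) trivial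

theorem ht_suffix (D : Finset (ZMod p)) (hD : D ≠ Finset.univ)
    (ih : ∀ D', D.card < D'.card → ∀ τ', Ht 0 (lg fun w => dom f E w = D' ∧ tr f w = τ')) :
    ∃ L : Language α, Ht 0 L ∧ (∀ w ∈ L, img f E w ⊆ D) ∧
      ∀ w, img f E w = D → w ∈ L := by
  refine ⟨lg fun w => ∃ x : Finset (ZMod p) × ZMod p × α, w ∈ lg fun w =>
      (D.card < x.1.card ∧ stepImg f E x.1 x.2.1 x.2.2 = D) ∧
        w ∈ (lg fun _ => True) * ({[x.2.2]} * lg fun u => dom f E u = x.1 ∧ tr f u = x.2.1),
      ht_exists _ fun x => ?_, ?_, ?_⟩
  · by_cases hc : D.card < x.1.card ∧ stepImg f E x.1 x.2.1 x.2.2 = D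
    · exact ht_cond _ (ht_univ.mul ((ht_letter _).mul (ih _ hc.1 _)))
    · exact ht_zero.of_iff fun w => ⟨fun h => hc h.1, fun h => h.elim⟩
  · rintro w ⟨⟨D', τ', b⟩, ⟨-, hs⟩, hw⟩
    obtain ⟨t, -, y, hy, rfl⟩ := Language.mem_mul.1 hw
    obtain ⟨z, hz, u, ⟨hu1, hu2⟩, rfl⟩ := Language.mem_mul.1 hy
    have hz' : z = [b] := hz
    subst hz'
    refine (img_append_subset f E _ _).trans (le_of_eq ?_)
    rw [List.singleton_append, img_cons, hu1, hu2]
    exact hs
  · intro w hw
    suffices ∀ u v : List α, img f E u = D → ∃ x : Finset (ZMod p) × ZMod p × α,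
        (D.card < x.1.card ∧ stepImg f E x.1 x.2.1 x.2.2 = D) ∧
        v ++ u ∈ (lg fun _ => True) *
          ({[x.2.2]} * lg fun u => dom f E u = x.1 ∧ tr f u = x.2.1) by
      obtain ⟨x, hx⟩ := this w [] hw
      exact ⟨x, hx.1, by simpa using hx.2⟩
    intro u
    induction u with
    | nil => exact fun v h => (hD (by rw [← h, img_nil])).elim
    | cons b u ihu =>
      intro v h
      by_cases he : img f E u = D
      · simpa using ihu (v ++ [b]) he
      · refine ⟨(dom f E u, tr f u, b), ⟨?_, ?_⟩, ?_⟩
        · rw [← card_img]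
          exact Finset.card_lt_card (Finset.ssubset_iff_subset_ne.2
            ⟨h ▸ img_append_subset f E [b] u, Ne.symm he⟩)
        · rw [← h, img_cons]
        · have hb1 : [b] ∈ ({[b]} : Language α) := rfl
          have hu : u ∈ lg (fun z => dom f E z = dom f E u ∧ tr f z = tr f u) := ⟨rfl, rfl⟩
          exact Language.append_mem_mul trivial (Language.append_mem_mul hb1 hu)

/-- Short words whose domain is small. -/
def badPair (k : ℕ) (b c : α) : Language α :=
  lg fun v => k < (dom f E v).card ∧
    (stepBoth f E (dom f E v) (tr f v) b c).card < k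

theorem ht_badFactor (k : ℕ)
    (ih : ∀ D', k < D'.card → ∀ τ', Ht 0 (lg fun w => dom f E w = D' ∧ tr f w = τ'))
    (hk : k ≤ p) :
    Ht 0 (lg fun w : List α => ∃ s x t, w = s ++ x ++ t ∧ (dom f E x).card < k) := by
  have hpair : ∀ b c, Ht 0 (badPair f E k b c) := by
    intro b c
    refine (ht_exists (fun x : Finset (ZMod p) × ZMod p => lg fun v =>
        (k < x.1.card ∧ (stepBoth f E x.1 x.2 b c).card < k) ∧
          v ∈ lg fun v => dom f E v = x.1 ∧ tr f v = x.2) fun x => ?_).of_iff fun v => ?_
    · by_cases hc : k < x.1.card ∧ (stepBoth f E x.1 x.2 b c).card < k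
      · exact ht_cond _ (ih _ hc.1 _)
      · exact ht_zero.of_iff fun w => ⟨fun h => hc h.1, fun h => h.elim⟩
    · simp only [badPair, mem_lg]
      constructor
      · exact fun h => ⟨(_, _), h, rfl, rfl⟩
      · rintro ⟨x, h, h1, h2⟩
        rw [h1, h2]
        exact h
  refine ((ht_exists (fun b : α => lg fun w => (dom f E [b]).card < k ∧
      w ∈ lg fun v : List α => b ∈ v) fun b => ht_cond _ (ht_mem b)).add
    (ht_exists (fun x : α × α => (lg fun _ => True) * {[x.1]} * badPair f E k x.1 x.2 * {[x.2]} *
      lg fun _ => True) fun x => ((((ht_univ.mul (ht_letter _)).mul (hpair _ _)).mul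
        (ht_letter _)).mul ht_univ))).of_iff fun w => ?_
  rw [Language.mem_add]
  simp only [mem_lg]
  constructor
  · rintro ⟨s, x, t, rfl, hx⟩
    suffices H : ∀ n, ∀ y s t : List α, y.length = n → (dom f E y).card < k →
        (∃ b, (dom f E [b]).card < k ∧ b ∈ s ++ y ++ t) ∨
        ∃ x : α × α, s ++ y ++ t ∈ (lg fun _ => True) * {[x.1]} * badPair f E k x.1 x.2 *
          {[x.2]} * lg fun _ => True from H _ _ s t rfl hx
    intro n
    induction n using Nat.strong_induction_on with
    | _ n IH =>
      intro y s t hn hy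
      rcases List.eq_nil_or_concat y with rfl | ⟨y', c, rfl⟩
      · rw [dom_nil, Finset.card_univ, ZMod.card] at hy
        omega
      · rcases y' with - | ⟨b, v⟩
        · exact Or.inl ⟨c, by simpa using hy, by simp⟩
        · simp only [List.concat_eq_append, List.cons_append, List.length_cons,
            List.length_append, List.length_nil] at *
          by_cases h1 : (dom f E (b :: v)).card < k
          · simpa using IH (b :: v).length (by simp; omega) (b :: v) s (c :: t) rfl h1
          by_cases h2 : (dom f E (v ++ [c])).card < k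
          · simpa using IH _ (by simp; omega) (v ++ [c]) (s ++ [b]) t rfl h2
          refine Or.inr ⟨(b, c), ?_⟩
          have h3 : k ≤ (dom f E v).card := le_trans (not_lt.1 h2)
            (Finset.card_le_card (dom_append_subset f E v [c]))
          have h4 := card_dom_both f E v b c
          have h5 : k < (dom f E v).card := by
            refine lt_of_le_of_ne h3 fun he => ?_
            have hL : stepDom E (dom f E v) (tr f v) c = dom f E v := by
              refine Finset.eq_of_subset_of_card_le ?_ ?_
              · rw [← dom_snoc]; exact dom_append_subset f E v [c]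
              · rw [← dom_snoc]; omega
            have hR : stepImg f E (dom f E v) (tr f v) b = img f E v := by
              refine Finset.eq_of_subset_of_card_le ?_ ?_
              · rw [← img_cons]; exact img_append_subset f E [b] v
              · rw [← img_cons, card_img, card_img]; omega
            have hall : stepBoth f E (dom f E v) (tr f v) b c = dom f E v := by
              ext q
              simp only [stepBoth, Finset.mem_filter, and_iff_left_iff_imp]
              intro hq
              constructor
              · have : q + tr f v ∈ stepImg f E (dom f E v) (tr f v) b :=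
                  hR ▸ Finset.mem_image_of_mem _ hq
                simp only [stepImg, Finset.mem_image, Finset.mem_filter] at this
                obtain ⟨r, ⟨-, hr⟩, e⟩ := this
                rwa [← add_right_cancel e]
              · have : q ∈ stepDom E (dom f E v) (tr f v) c := hL.symm ▸ hq
                simp only [stepDom, Finset.mem_filter] at this
                exact this.2
            rw [hall] at h4
            omega
          have : s ++ (b :: (v ++ [c])) ++ t = s ++ [b] ++ v ++ [c] ++ t := by simp
          rw [this]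
          exact Language.append_mem_mul (Language.append_mem_mul (Language.append_mem_mul
            (Language.append_mem_mul trivial rfl) ⟨h5, h4 ▸ hy⟩) rfl) trivial
  · rintro (⟨b, hb, hm⟩ | ⟨⟨b, c⟩, h⟩)
    · obtain ⟨s, t, rfl⟩ := List.append_of_mem hm
      exact ⟨s, [b], t, by simp, hb⟩
    · obtain ⟨y1, hy1, t, -, rfl⟩ := Language.mem_mul.1 h
      obtain ⟨y2, hy2, z, hz, rfl⟩ := Language.mem_mul.1 hy1
      obtain ⟨y3, hy3, v, ⟨-, hv⟩, rfl⟩ := Language.mem_mul.1 hy2
      obtain ⟨s, -, z', hz', rfl⟩ := Language.mem_mul.1 hy3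
      have e1 : z = [c] := hz
      have e2 : z' = [b] := hz'
      subst e1 e2
      exact ⟨s, b :: (v ++ [c]), t, by simp, by rw [card_dom_both]; exact hv⟩

end step

theorem ht_cell (hb : ∀ b, f b ≠ 0 → ∃ q, ¬ E q b) :
    ∀ (D : Finset (ZMod p)), D.Nonempty → ∀ τ,
      Ht 0 (lg fun w => dom f E w = D ∧ tr f w = τ) := by
  suffices ∀ d, ∀ D : Finset (ZMod p), p - D.card = d → D.Nonempty → ∀ τ,
      Ht 0 (lg fun w => dom f E w = D ∧ tr f w = τ) from fun D => this _ D rfl
  intro d
  induction d using Nat.strong_induction_on with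
  | _ d IH =>
    intro D hd hD τ
    by_cases hU : D = Finset.univ
    · subst hU; exact ht_cell_univ f E hb τ
    have hle : ∀ X : Finset (ZMod p), X.card ≤ p := fun X => by
      simpa [ZMod.card] using Finset.card_le_univ X
    have ih : ∀ D', D.card < D'.card → ∀ τ', Ht 0 (lg fun w => dom f E w = D' ∧ tr f w = τ') := by
      intro D' h
      refine IH _ ?_ D' rfl (Finset.card_pos.1 (by omega))
      have := hle D'
      omega
    obtain ⟨Lp, hLp, hp1, hp2⟩ := ht_prefix f E D hU ih
    have hc : (D.image (· + τ)).card = D.card :=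
      Finset.card_image_of_injective _ (add_left_injective τ)
    obtain ⟨Ls, hLs, hs1, hs2⟩ := ht_suffix f E (D.image (· + τ))
      (fun h => hU (Finset.eq_univ_of_card _ (by rw [← hc, h, Finset.card_univ])))
      (by rw [hc]; exact ih)
    refine ((hLp.inter hLs).inter (ht_badFactor f E D.card ih (hle D)).compl).of_iff fun w => ?_
    simp only [mem_lg, mem_compl_iff']
    constructor
    · rintro ⟨h1, h2⟩
      refine ⟨⟨hp2 w h1, hs2 w ?_⟩, ?_⟩
      · rw [img, h1, h2]
      · rintro ⟨s, x, t, rfl, hx⟩
        have : D.card ≤ (dom f E x).card := by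
          rw [← h1]
          refine le_trans (Finset.card_le_card (dom_append_subset f E _ _)) ?_
          rw [← card_img, ← card_img f E x]
          exact Finset.card_le_card (img_append_subset f E _ _)
        omega
    · rintro ⟨⟨h1, h2⟩, h3⟩
      have hk : D.card ≤ (dom f E w).card :=
        not_lt.1 fun h => h3 ⟨[], w, [], by simp, h⟩
      have e1 := Finset.eq_of_subset_of_card_le (hp1 w h1) hk
      have e2 := Finset.eq_of_subset_of_card_le (hs1 w h2) (by rw [hc, card_img]; exact hk)
      rw [img, e1] at e2
      exact ⟨e1, eq_of_shift_eq hD hU e2⟩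

/-- Path languages of such automata are star-free. -/
theorem ht_pth (hb : ∀ b, f b ≠ 0 → ∃ q, ¬ E q b) (q q' : ZMod p) : Ht 0 (Pth f E q q') := by
  refine (ht_exists (fun D : {D : Finset (ZMod p) // q ∈ D} =>
      lg fun w => dom f E w = D.1 ∧ tr f w = q' - q)
    fun D => ht_cell f E hb _ ⟨q, D.2⟩ _).of_iff fun w => ?_
  simp only [Pth, mem_lg]
  constructor
  · rintro ⟨h1, rfl⟩
    exact ⟨⟨dom f E w, (mem_dom f E).2 h1⟩, rfl, by ring⟩
  · rintro ⟨⟨D, hq⟩, h1, h2⟩
    exact ⟨(mem_dom f E).1 (h1 ▸ hq), by rw [h2]; ring⟩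

end Vale.Agent.P329.Grp
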