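import Mathlib
import Vale.Agent.P329.GrpBasic

/-!
Word functions whose residues modulo every `m` define languages of star height at most one.
-/

namespace Vale.Agent.P329.Grp

open H36 Computability

variable {α : Type}

/-- All residue classes of `F` have star height at most one. -/
def Meas (F : List α → ℤ) : Prop :=
  ∀ m : ℕ, 0 < m → ∀ r : ZMod m, Ht 1 (lg fun w => (F w : ZMod m) = r)

variable {F G : List α → ℤ}

theorem Meas.congr (h : Meas F) (e : ∀ w, G w = F w) : Meas G := fun m hm r =>
  (h m hm r).of_iff fun w => by simp [e]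

theorem meas_const (c : ℤ) : Meas (fun _ : List α => c) := fun m _ r =>
  (ht_cond ((c : ZMod m) = r) ht_univ).of_iff fun w => by simp

theorem Meas.add (h : Meas F) (g : Meas G) : Meas (fun w => F w + G w) := by
  intro m hm r
  haveI : NeZero m := ⟨hm.ne'⟩
  refine (ht_exists (fun i : ZMod m => lg fun w =>
    w ∈ lg (fun w => (F w : ZMod m) = i) ∧ w ∈ lg (fun w => (G w : ZMod m) = r - i))
    fun i => (h m hm i).inter (g m hm (r - i))).of_iff fun w => ?_
  simp only [mem_lg]
  constructor
  · intro e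
    refine ⟨_, rfl, ?_⟩
    rw [← e]; push_cast; ring
  · rintro ⟨i, e1, e2⟩
    push_cast
    rw [e1, e2]; ring

theorem Meas.const_mul (c : ℤ) (h : Meas F) : Meas (fun w => c * F w) := by
  intro m hm r
  haveI : NeZero m := ⟨hm.ne'⟩
  refine (ht_exists (fun i : ZMod m => lg fun w => (c : ZMod m) * i = r ∧
    w ∈ lg (fun w => (F w : ZMod m) = i)) fun i => ht_cond _ (h m hm i)).of_iff fun w => ?_
  simp only [mem_lg]
  constructor
  · intro e
    refine ⟨_, ?_, rfl⟩
    rw [← e]; push_cast; ring
  · rintro ⟨i, e1, e2⟩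
    rw [← e1, ← e2]; push_cast; ring

theorem Meas.sub (h : Meas F) (g : Meas G) : Meas (fun w => F w - G w) :=
  (h.add (g.const_mul (-1))).congr fun w => by ring

theorem meas_sum {ι : Type*} (s : Finset ι) (F : ι → List α → ℤ) (h : ∀ i ∈ s, Meas (F i)) :
    Meas (fun w => ∑ i ∈ s, F i w) := by
  classical
  induction s using Finset.induction_on with
  | empty => exact (meas_const 0).congr fun w => by simp
  | @insert a s ha ih =>
    exact ((h a (Finset.mem_insert_self _ _)).add
      (ih fun i hi => h i (Finset.mem_insert_of_mem hi))).congr fun w => by simp [ha]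

open Classical in
theorem meas_ind (L : Language α) (hL : Ht 1 L) :
    Meas (fun w => if w ∈ L then (1 : ℤ) else 0) := by
  intro m _ r
  refine ((ht_cond ((1 : ZMod m) = r) hL).add
    (ht_cond ((0 : ZMod m) = r) hL.compl)).of_iff fun w => ?_
  rw [Language.mem_add]
  simp only [mem_lg, mem_compl_iff']
  by_cases hw : w ∈ L <;> simp [hw]

theorem Meas.of_mul {d : ℕ} (hd : 0 < d) (h : Meas (fun w => (d : ℤ) * F w)) : Meas F := by
  intro m hm r
  haveI : NeZero m := ⟨hm.ne'⟩
  refine (h (d * m) (Nat.mul_pos hd hm) (((d : ℤ) * (r.val : ℤ) : ℤ) : ZMod (d * m))).of_iff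
    fun w => ?_
  simp only [mem_lg]
  rw [ZMod.intCast_eq_intCast_iff_dvd_sub, ← mul_sub, Nat.cast_mul,
    mul_dvd_mul_iff_left (by exact_mod_cast hd.ne'), ← ZMod.intCast_eq_intCast_iff_dvd_sub]
  simp

theorem mem_pow_flatten {K : Language α} {S : List (List α)} (h : ∀ y ∈ S, y ∈ K) :
    S.flatten ∈ K ^ S.length :=
  Language.mem_pow.2 ⟨S, rfl, rfl, h⟩

theorem pow_mul_le_kstar (K : Language α) (m q : ℕ) {x : List α} (hx : x ∈ K ^ (m * q)) :
    x ∈ (K ^ m)∗ := by
  rw [pow_mul] at hx
  obtain ⟨S, rfl, -, hS⟩ := Language.mem_pow.1 hx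
  exact Language.join_mem_kstar hS

/-- Counting the factors of a code. -/
theorem meas_code (U K T W : Language α) (hU : Ht 1 U) (hK : Ht 0 K) (hT : Ht 1 T) (hW : Ht 1 W)
    (hF0 : ∀ w ∈ W, F w = 0)
    (hF : ∀ u ∈ U, ∀ (S : List (List α)), (∀ y ∈ S, y ∈ K) → ∀ t ∈ T,
      F (u ++ S.flatten ++ t) = S.length)
    (hex : ∀ w, w ∈ W ∨ ∃ u ∈ U, ∃ S : List (List α), (∀ y ∈ S, y ∈ K) ∧ ∃ t ∈ T,
      u ++ S.flatten ++ t = w) :
    Meas F := by
  intro m hm r
  haveI : NeZero m := ⟨hm.ne'⟩
  have hKm : Ht 1 ((K ^ m)∗ * K ^ r.val) := (hK.pow m).star.mul ((hK.pow _).mono (by norm_num))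
  refine ((ht_cond ((0 : ZMod m) = r) hW).add ((hU.mul hKm).mul hT)).of_iff fun w => ?_
  rw [Language.mem_add]
  simp only [mem_lg]
  constructor
  · intro e
    rcases hex w with hw | ⟨u, hu, S, hS, t, ht, rfl⟩
    · exact Or.inl ⟨by rw [← e, hF0 w hw]; simp, hw⟩
    · refine Or.inr (Language.append_mem_mul ?_ ht)
      refine Language.append_mem_mul hu ?_
      rw [hF u hu S hS t ht] at e
      have hlen : S.length % m = r.val := by
        rw [← e]; simp [ZMod.val_natCast]
      have hk : S.length = m * (S.length / m) + r.val := by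
        rw [← hlen, Nat.div_add_mod]
      have hx := mem_pow_flatten hS
      rw [hk, pow_add] at hx
      obtain ⟨a, ha, b, hb, hab⟩ := Language.mem_mul.1 hx
      exact Language.mem_mul.2 ⟨a, pow_mul_le_kstar K m _ ha, b, hb, hab⟩
  · rintro (⟨e, hw⟩ | h)
    · rw [hF0 w hw, ← e]; simp
    · obtain ⟨y, hy, t, ht, rfl⟩ := Language.mem_mul.1 h
      obtain ⟨u, hu, z, hz, rfl⟩ := Language.mem_mul.1 hy
      obtain ⟨a, ha, b, hb, rfl⟩ := Language.mem_mul.1 hz
      obtain ⟨L, rfl, hL⟩ := Language.mem_kstar.1 ha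
      obtain ⟨S₂, rfl, hl, hS₂⟩ := Language.mem_pow.1 hb
      obtain ⟨S₁, h1, h2, h3⟩ : ∃ S₁ : List (List α), S₁.flatten = L.flatten ∧
          (S₁.length : ZMod m) = 0 ∧ ∀ y ∈ S₁, y ∈ K := by
        clear hy hz ha h
        induction L with
        | nil => exact ⟨[], by simp⟩
        | cons x L ih =>
          obtain ⟨S₁, h1, h2, h3⟩ := ih fun y hy => hL y (List.mem_cons_of_mem _ hy)
          obtain ⟨S₀, hx, h0, hS₀⟩ := Language.mem_pow.1 (hL x List.mem_cons_self)
          refine ⟨S₀ ++ S₁, by simp [h1, hx], by simp [h2, h0], ?_⟩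
          intro y hy
          rcases List.mem_append.1 hy with hy | hy
          · exact hS₀ y hy
          · exact h3 y hy
      have e := hF u hu (S₁ ++ S₂) (by
        intro y hy
        rcases List.mem_append.1 hy with hy | hy
        · exact h3 y hy
        · exact hS₂ y hy) t ht
      rw [List.flatten_append, h1] at e
      rw [e]
      simp [h2, hl]

/-- The number of occurrences of a letter. -/
theorem meas_count [Fintype α] [DecidableEq α] (a : α) :
    Meas (fun w : List α => (w.count a : ℤ)) := by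
  have hfree : ∀ k, Ht k (lg fun w : List α => a ∉ w) := fun k =>
    (ht_mem a).compl.of_iff fun w => by simp [mem_compl_iff']
  refine meas_code 1 ((lg fun w : List α => a ∉ w) * {[a]}) (lg fun w : List α => a ∉ w) 0
    ht_one ((hfree 0).mul (ht_letter a)) (hfree 1) ht_zero (fun w hw => hw.elim) ?_ ?_
  · intro u hu S hS t ht
    have hu' : u = [] := hu
    subst hu'
    simp only [mem_lg] at ht
    induction S with
    | nil => simpa [List.count_eq_zero] using ht
    | cons y S ih =>
      obtain ⟨v, hv, z, hz, rfl⟩ := Language.mem_mul.1 (hS y List.mem_cons_self)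
      have hz' : z = [a] := hz
      subst hz'
      have := ih fun y hy => hS y (List.mem_cons_of_mem _ hy)
      simp only [mem_lg] at hv
      simp [List.count_eq_zero.2 hv] at this ⊢
      omega
  · intro w
    right
    refine ⟨[], rfl, ?_⟩
    induction w with
    | nil => exact ⟨[], by simp, [], by simp, rfl⟩
    | cons b w ih =>
      obtain ⟨S, hS, t, ht, e⟩ := ih
      by_cases hb : b = a
      · refine ⟨[a] :: S, ?_, t, ht, by simp [← e, hb]⟩
        intro y hy
        rcases List.mem_cons.1 hy with rfl | hy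
        · exact Language.append_mem_mul (a := []) (by simp) rfl
        · exact hS y hy
      · rcases S with - | ⟨y, S⟩
        · exact ⟨[], by simp, b :: t, by simp at ht ⊢; exact ⟨Ne.symm hb, ht⟩, by simp [← e]⟩
        · refine ⟨(b :: y) :: S, ?_, t, ht, by simp [← e]⟩
          intro z hz
          rcases List.mem_cons.1 hz with rfl | hz
          · obtain ⟨v, hv, z', hz', rfl⟩ := Language.mem_mul.1 (hS y List.mem_cons_self)
            exact Language.append_mem_mul (a := b :: v)
              (by simp at hv ⊢; exact ⟨Ne.symm hb, hv⟩) hz'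
          · exact hS z (List.mem_cons_of_mem _ hz)

end Vale.Agent.P329.Grp
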