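import Mathlib
import Vale.Agent.P329.GrpAuto
import Vale.Agent.P329.GrpCount

/-!
For `f : α → ZMod p`, the number of occurrences of a letter at a given phase is measurable
by languages of star height at most one.
-/

namespace Vale.Agent.P329.Grp

open H36 Computability

variable {α : Type} {p : ℕ} (f : α → ZMod p) (t : ZMod p)

/-- Transitions that do not start at `t`. -/
def Av : ZMod p → α → Prop := fun s _ => s ≠ t

/-- First returns to `t`. -/
def Ret : Language α := lg fun r => ∃ b u, r = b :: u ∧ u ∈ Pth f (Av t) (t + f b) t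

/-- Words that start at `t` and do not return there. -/
def Tail : Language α :=
  lg fun w => w = [] ∨ ∃ b u, w = b :: u ∧ Ok f (Av t) (t + f b) u ∧ t + f b + tr f u ≠ t

theorem av_rest {q : ZMod p} {u z : List α} (h : Ok f (Av t) q (u ++ z)) (he : q + tr f u = t) :
    z = [] := by
  rcases z with - | ⟨c, z⟩
  · rfl
  · exact absurd he ((ok_append f _ _ _ _).1 h).2.1

theorem av_prefix_eq {q : ZMod p} {u u' : List α} {v v' : List α} (h : u ∈ Pth f (Av t) q t)
    (h' : u' ∈ Pth f (Av t) q t) (e : u ++ v = u' ++ v') : u = u' := by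
  rcases List.prefix_or_prefix_of_prefix (List.prefix_append u v)
    (e ▸ List.prefix_append u' v') with ⟨z, hz⟩ | ⟨z, hz⟩
  · subst hz
    simp [av_rest f t h'.1 h.2]
  · subst hz
    simp [av_rest f t h.1 h'.2]

theorem av_not_hit {q : ZMod p} {u v : List α} (h : u ∈ Pth f (Av t) q t)
    (hw : Ok f (Av t) q (u ++ v)) : q + tr f (u ++ v) = t := by
  rw [av_rest f t hw h.2, List.append_nil]
  exact h.2

theorem first_hit (w : List α) : ∀ q, (Ok f (Av t) q w ∧ q + tr f w ≠ t) ∨
    ∃ u ∈ Pth f (Av t) q t, ∃ v, u ++ v = w := by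
  induction w with
  | nil =>
    intro q
    by_cases hq : q = t
    · exact Or.inr ⟨[], ⟨trivial, by simp [hq]⟩, [], rfl⟩
    · exact Or.inl ⟨trivial, by simpa using hq⟩
  | cons b w ih =>
    intro q
    by_cases hq : q = t
    · exact Or.inr ⟨[], ⟨trivial, by simp [hq]⟩, b :: w, rfl⟩
    · rcases ih (q + f b) with ⟨h1, h2⟩ | ⟨u, ⟨h1, h2⟩, v, rfl⟩
      · exact Or.inl ⟨⟨hq, h1⟩, by rwa [tr_cons, ← add_assoc]⟩
      · exact Or.inr ⟨b :: u, ⟨⟨hq, h1⟩, by rwa [tr_cons, ← add_assoc]⟩, v, rfl⟩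

theorem ret_decomp (n : ℕ) : ∀ v : List α, v.length ≤ n → ∃ S : List (List α),
    (∀ r ∈ S, r ∈ Ret f t) ∧ ∃ x ∈ Tail f t, S.flatten ++ x = v := by
  induction n with
  | zero =>
    intro v hv
    obtain rfl := List.length_eq_zero_iff.1 (Nat.le_zero.1 hv)
    exact ⟨[], by simp, [], Or.inl rfl, rfl⟩
  | succ n ih =>
    intro v hv
    rcases v with - | ⟨b, w⟩
    · exact ⟨[], by simp, [], Or.inl rfl, rfl⟩
    · rcases first_hit f t w (t + f b) with ⟨h1, h2⟩ | ⟨u, hu, v, rfl⟩
      · exact ⟨[], by simp, b :: w, Or.inr ⟨b, w, rfl, h1, h2⟩, rfl⟩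
      · obtain ⟨S, hS, x, hx, e⟩ := ih v (by simp at hv; omega)
        refine ⟨(b :: u) :: S, ?_, x, hx, by simp [← e]⟩
        intro r hr
        rcases List.mem_cons.1 hr with rfl | hr
        · exact ⟨b, u, rfl, hu⟩
        · exact hS r hr

theorem tr_ret {r : List α} (h : r ∈ Ret f t) : tr f r = 0 := by
  obtain ⟨b, u, rfl, -, h⟩ := h
  rw [tr_cons]
  linear_combination h

theorem tr_flatten_ret {S : List (List α)} (h : ∀ r ∈ S, r ∈ Ret f t) : tr f S.flatten = 0 := by
  induction S with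
  | nil => simp
  | cons r S ih =>
    rw [List.flatten_cons, tr_append, tr_ret f t (h r List.mem_cons_self),
      ih fun x hx => h x (List.mem_cons_of_mem _ hx), add_zero]

open Classical in
/-- The number of positions at phase `s` whose remaining suffix satisfies `P`. -/
noncomputable def cnt (s : ZMod p) (P : List α → Prop) : ZMod p → List α → ℕ
  | _, [] => 0
  | q, b :: w => (if q = s ∧ P (b :: w) then 1 else 0) + cnt s P (q + f b) w

open Classical in
/-- The indicator of a proposition. -/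
noncomputable def ind (P : Prop) : ℤ := if P then 1 else 0

theorem cnt_av (P : List α → Prop) (u v : List α) :
    ∀ q, Ok f (Av t) q u → cnt f t P q (u ++ v) = cnt f t P (q + tr f u) v := by
  induction u with
  | nil => simp
  | cons b u ih =>
    intro q h
    rw [List.cons_append, cnt, if_neg (fun x => h.1 x.1), zero_add, ih _ h.2, tr_cons, add_assoc]

theorem cnt_ret (P : List α → Prop) {r : List α} (h : r ∈ Ret f t) (v : List α) :
    (cnt f t P t (r ++ v) : ℤ) = ind (P (r ++ v)) + cnt f t P t v := by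
  obtain ⟨b, u, rfl, h1, h2⟩ := h
  rw [List.cons_append, cnt, cnt_av f t P u v _ h1, h2, ind]
  split_ifs <;> simp_all

theorem cnt_tail (P : List α → Prop) {x : List α} (h : x ∈ Tail f t) :
    (cnt f t P t x : ℤ) = ind (x ≠ [] ∧ P x) := by
  rcases h with rfl | ⟨b, u, rfl, h1, -⟩
  · simp [cnt, ind]
  · rw [cnt, ← List.append_nil u, cnt_av f t P u [] _ h1, List.append_nil, ind]
    simp only [cnt]
    split_ifs <;> simp_all

theorem cnt_never (P : List α → Prop) {w : List α} {q : ZMod p} (h : Ok f (Av t) q w) :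
    cnt f t P q w = 0 := by
  have := cnt_av f t P w [] q h
  simpa [cnt] using this

theorem ret_prefix_eq {r r' v : List α} (h : r ∈ Ret f t) (h' : r' ∈ Ret f t)
    (hp : r <+: r' ++ v) : r = r' := by
  obtain ⟨b, u, rfl, hu⟩ := h
  obtain ⟨b', u', rfl, hu'⟩ := h'
  obtain ⟨z, hz⟩ := hp
  simp only [List.cons_append, List.cons.injEq] at hz
  obtain ⟨rfl, hz⟩ := hz
  rw [av_prefix_eq f t hu hu' hz]

theorem ret_not_prefix_tail {r x : List α} (h : r ∈ Ret f t) (hx : x ∈ Tail f t) :
    ¬ r <+: x := by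
  obtain ⟨b, u, rfl, hu⟩ := h
  rintro ⟨z, hz⟩
  rcases hx with rfl | ⟨b', u', rfl, h1, h2⟩
  · simp at hz
  · simp only [List.cons_append, List.cons.injEq] at hz
    obtain ⟨rfl, rfl⟩ := hz
    exact h2 (av_not_hit f t hu h1)

/-- Returns that use a transition outside `E`. -/
def OutRet (E : ZMod p → α → Prop) : Language α := lg fun r => r ∈ Ret f t ∧ ¬ Ok f E t r

/-- The number of returns using a transition outside `E`. -/
noncomputable def nOut (E : ZMod p → α → Prop) (q : ZMod p) (w : List α) : ℤ :=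
  cnt f t (fun v => ∃ r ∈ OutRet f t E, r <+: v) q w

theorem nOut_av (E : ZMod p → α → Prop) (u v : List α) {q : ZMod p} (h : Ok f (Av t) q u) :
    nOut f t E q (u ++ v) = nOut f t E (q + tr f u) v := by
  rw [nOut, cnt_av f t _ u v q h, nOut]

theorem nOut_ret (E : ZMod p → α → Prop) {r : List α} (h : r ∈ Ret f t) (v : List α) :
    nOut f t E t (r ++ v) = ind (¬ Ok f E t r) + nOut f t E t v := by
  rw [nOut, cnt_ret f t _ h, nOut]
  congr 2
  apply propext
  constructor
  · rintro ⟨r', ⟨hr', hE⟩, hp⟩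
    rwa [← ret_prefix_eq f t hr' h hp]
  · exact fun hE => ⟨r, ⟨h, hE⟩, List.prefix_append _ _⟩

theorem nOut_tail (E : ZMod p → α → Prop) {x : List α} (h : x ∈ Tail f t) :
    nOut f t E t x = 0 := by
  rw [nOut, cnt_tail f t _ h, ind, if_neg]
  rintro ⟨-, r, ⟨hr, -⟩, hp⟩
  exact ret_not_prefix_tail f t hr h hp

theorem nOut_loop (E : ZMod p → α → Prop) {s : List α} (h : s ∈ Pth f E t t) (v : List α) :
    nOut f t E t (s ++ v) = nOut f t E t v := by
  obtain ⟨S, hS, x, hx, rfl⟩ := ret_decomp f t s.length s le_rfl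
  obtain ⟨h1, h2⟩ := h
  rw [tr_append, tr_flatten_ret f t hS, zero_add] at h2
  have hx0 : x = [] := by
    rcases hx with rfl | ⟨b, u, rfl, -, hne⟩
    · rfl
    · exact absurd (by rwa [tr_cons, ← add_assoc] at h2) hne
  subst hx0
  rw [List.append_nil] at h1 ⊢
  clear h2 hx
  induction S with
  | nil => simp
  | cons r S ih =>
    rw [List.flatten_cons, ok_append, tr_ret f t (hS r List.mem_cons_self), add_zero] at h1
    rw [List.flatten_cons, List.append_assoc, nOut_ret f t E (hS r List.mem_cons_self),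
      ih (fun x hx => hS x (List.mem_cons_of_mem _ hx)) h1.2, ind, if_neg (not_not_intro h1.1)]
    simp

variable [Fintype α] [Fact p.Prime]

theorem hb_av : ∀ b, f b ≠ 0 → ∃ q, ¬ (Av t : ZMod p → α → Prop) q b :=
  fun _ _ => ⟨t, fun h => h rfl⟩

theorem ht_hit (q : ZMod p) {k : ℕ} : Ht k (Pth f (Av t) q t) :=
  (ht_pth f _ (hb_av f t) q t).mono (Nat.zero_le k)

theorem ht_never {k : ℕ} (q : ZMod p) :
    Ht k (lg fun w => Ok f (Av t) q w ∧ q + tr f w ≠ t) := by
  refine (ht_exists (fun s : ZMod p => lg fun w => s ≠ t ∧ w ∈ Pth f (Av t) q s) fun s =>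
    ht_cond _ ((ht_pth f _ (hb_av f t) q s).mono (Nat.zero_le k))).of_iff fun w => ?_
  simp only [mem_lg, Pth]
  exact ⟨fun h => ⟨_, h.2, h.1, rfl⟩, fun ⟨s, h1, h2, h3⟩ => ⟨h2, h3 ▸ h1⟩⟩

theorem ht_ret {k : ℕ} : Ht k (Ret f t) := by
  refine (ht_exists (fun b : α => {[b]} * Pth f (Av t) (t + f b) t) fun b =>
    (ht_letter b).mul (ht_hit f t _)).of_iff fun w => ?_
  simp only [mem_lg, Ret, Language.mem_mul]
  constructor
  · rintro ⟨b, u, rfl, hu⟩
    exact ⟨b, [b], rfl, u, hu, rfl⟩
  · rintro ⟨b, x, hx, u, hu, rfl⟩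
    have hx' : x = [b] := hx
    subst hx'
    exact ⟨b, u, rfl, hu⟩

theorem ht_tail {k : ℕ} : Ht k (Tail f t) := by
  refine (ht_one.add (ht_exists (fun b : α => {[b]} *
    lg fun w => Ok f (Av t) (t + f b) w ∧ t + f b + tr f w ≠ t) fun b =>
      (ht_letter b).mul (ht_never f t _))).of_iff fun w => ?_
  simp only [Language.mem_add, Language.mem_one, mem_lg, Tail, Language.mem_mul]
  constructor
  · rintro (h | ⟨b, u, rfl, hu⟩)
    · exact Or.inl h
    · exact Or.inr ⟨b, [b], rfl, u, hu, rfl⟩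
  · rintro (h | ⟨b, x, hx, u, hu, rfl⟩)
    · exact Or.inl h
    · have hx' : x = [b] := hx
      subst hx'
      exact Or.inr ⟨b, u, rfl, hu⟩

/-- The central counting lemma. -/
theorem meas_nOut (E : ZMod p → α → Prop) (hb : ∀ b, f b ≠ 0 → ∃ q, ¬ E q b) :
    Meas (fun w => nOut f t E 0 w) := by
  have hloop : ∀ k, Ht k (Pth f E t t) := fun k => (ht_pth f E hb t t).mono (Nat.zero_le k)
  have hout : Ht 0 (OutRet f t E) := by
    refine ((ht_ret f t).inter (hloop 0).compl).of_iff fun r => ?_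
    simp only [OutRet, mem_lg, mem_compl_iff']
    refine and_congr_right fun hr => not_congr ⟨fun h => ⟨h, ?_⟩, fun h => h.1⟩
    rw [tr_ret f t hr, add_zero]
  refine meas_code (Pth f (Av t) 0 t) (Pth f E t t * OutRet f t E) (Pth f E t t * Tail f t)
    (lg fun w => Ok f (Av t) 0 w ∧ 0 + tr f w ≠ t) (ht_hit f t 0) ((hloop 0).mul hout)
    ((hloop 1).mul (ht_tail f t)) (ht_never f t 0) ?_ ?_ ?_
  · intro w hw
    simp [nOut, cnt_never f t _ hw.1]
  · intro u hu S hS x hx
    rw [List.append_assoc, nOut, cnt_av f t _ u _ _ hu.1, hu.2, ← nOut]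
    induction S with
    | nil =>
      obtain ⟨s, hs, y, hy, rfl⟩ := Language.mem_mul.1 hx
      simp [nOut_loop f t E hs, nOut_tail f t E hy]
    | cons k S ih =>
      obtain ⟨s, hs, r, ⟨hr, hE⟩, rfl⟩ := Language.mem_mul.1 (hS k List.mem_cons_self)
      rw [List.flatten_cons, List.append_assoc, List.append_assoc, nOut_loop f t E hs,
        nOut_ret f t E hr, ih (fun z hz => hS z (List.mem_cons_of_mem _ hz)), ind, if_pos hE]
      simp; ring
  · intro w
    rcases first_hit f t w 0 with h | ⟨u, hu, v, rfl⟩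
    · exact Or.inl h
    · refine Or.inr ⟨u, hu, ?_⟩
      obtain ⟨L, hL, x, hx, rfl⟩ := ret_decomp f t v.length v le_rfl
      suffices ∃ S : List (List α), (∀ y ∈ S, y ∈ Pth f E t t * OutRet f t E) ∧
          ∃ s ∈ Pth f E t t, S.flatten ++ s = L.flatten by
        obtain ⟨S, hS, s, hs, e⟩ := this
        exact ⟨S, hS, s ++ x, Language.append_mem_mul hs hx, by simp [← e]⟩
      clear hu hx
      induction L with
      | nil => exact ⟨[], by simp, [], ⟨trivial, by simp⟩, rfl⟩
      | cons r L ih =>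
        obtain ⟨S, hS, s, hs, e⟩ := ih fun z hz => hL z (List.mem_cons_of_mem _ hz)
        have hr := hL r List.mem_cons_self
        have ht0 : t + tr f r = t := by rw [tr_ret f t hr, add_zero]
        by_cases hE : Ok f E t r
        · rcases S with - | ⟨k, S⟩
          · refine ⟨[], by simp, r ++ s, ⟨?_, ?_⟩, by simp [← e]⟩
            · rw [ok_append, ht0]; exact ⟨hE, hs.1⟩
            · rw [tr_append, ← add_assoc, ht0]; exact hs.2
          · refine ⟨(r ++ k) :: S, ?_, s, hs, by simp [← e]⟩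
            intro y hy
            rcases List.mem_cons.1 hy with rfl | hy
            · obtain ⟨s', hs', r', hr', rfl⟩ := Language.mem_mul.1 (hS k List.mem_cons_self)
              rw [← List.append_assoc]
              refine Language.append_mem_mul ⟨?_, ?_⟩ hr'
              · rw [ok_append, ht0]; exact ⟨hE, hs'.1⟩
              · rw [tr_append, ← add_assoc, ht0]; exact hs'.2
            · exact hS y (List.mem_cons_of_mem _ hy)
        · refine ⟨r :: S, ?_, s, hs, by simp [← e]⟩
          intro y hy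
          rcases List.mem_cons.1 hy with rfl | hy
          · exact Language.append_mem_mul (a := []) ⟨trivial, by simp⟩ ⟨hr, hE⟩
          · exact hS y hy

end Vale.Agent.P329.Grp
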