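import Mathlib
import Vale.Agent.P329.GrpPhase

/-!
The occurrences of a letter at each phase of `f : α → ZMod p`, and at each vector phase.
-/

namespace Vale.Agent.P329.Grp

open H36 Computability

variable {α : Type} {p : ℕ} (f : α → ZMod p) (t : ZMod p) (a : α)

/-- The first letter is `a`. -/
def Hd (v : List α) : Prop := v.head? = some a

/-- The number of occurrences of `a` at phase `s`. -/
noncomputable def xc (s q : ZMod p) (w : List α) : ℤ := cnt f s (Hd a) q w

theorem xc_never {q : ZMod p} {u : List α} :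
    Ok f (Av t) q u → q + tr f u ≠ t → xc f a (t - f a) q u = 0 := by
  induction u generalizing q with
  | nil => simp [xc, cnt]
  | cons b u ih =>
    intro h hne
    rw [tr_cons, ← add_assoc] at hne
    have := ih h.2 hne
    simp only [xc, cnt, Nat.cast_add] at this ⊢
    rw [this, if_neg]
    · simp
    · rintro ⟨e1, e2⟩
      obtain rfl : b = a := by simpa [Hd] using e2
      rcases u with - | ⟨c, u⟩
      · exact hne (by rw [tr_nil, e1]; ring)
      · exact h.2.1 (by rw [e1]; ring)

theorem xc_hit {q : ZMod p} {u : List α} (v : List α) :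
    Ok f (Av t) q u → q + tr f u = t →
      xc f a (t - f a) q (u ++ v) = ind (u.getLast? = some a) + xc f a (t - f a) t v := by
  induction u generalizing q with
  | nil =>
    intro _ h
    rw [tr_nil, add_zero] at h
    simp [h, ind]
  | cons b u ih =>
    intro h he
    rw [tr_cons, ← add_assoc] at he
    have e := ih h.2 he
    simp only [xc, cnt, List.cons_append, Nat.cast_add] at e ⊢
    rw [e]
    rcases u with - | ⟨c, u⟩
    · rw [tr_nil, add_zero] at he
      have hP : (q = t - f a ∧ Hd a (b :: ([] ++ v))) ↔ b = a := by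
        simp only [Hd, List.head?_cons, Option.some.injEq, and_iff_right_iff_imp]
        rintro rfl
        rw [← he]; ring
      simp only [ind, hP, List.getLast?_singleton, List.getLast?_nil, Option.some.injEq]
      split_ifs <;> simp_all
    · rw [if_neg, List.getLast?_cons_cons]
      · simp
      · rintro ⟨e1, e2⟩
        obtain rfl : b = a := by simpa [Hd] using e2
        exact h.2.1 (by rw [e1]; ring)

theorem ok_last {E : ZMod p → α → Prop} (hE : ∀ s b, s ≠ t → s + f b ≠ t → E s b)
    {q : ZMod p} {u : List α} :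
    Ok f (Av t) q u → q + tr f u = t →
      (Ok f E q u ↔ ∀ b, u.getLast? = some b → E (t - f b) b) := by
  induction u generalizing q with
  | nil => simp
  | cons c u ih =>
    intro h he
    rw [tr_cons, ← add_assoc] at he
    rw [ok_cons, ih h.2 he]
    rcases u with - | ⟨d, u⟩
    · rw [tr_nil, add_zero] at he
      simp [← he]
    · simp only [List.getLast?_cons_cons, and_iff_right_iff_imp]
      exact fun _ => hE _ _ h.1 h.2.1

variable [NeZero p] [Fintype α] [Fact p.Prime]

theorem meas_xc_zero (ha : f a = 0) : Meas (xc f a t 0) := by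
  set E : ZMod p → α → Prop := fun s b => s = t → b = a
  have hb : ∀ b, f b ≠ 0 → ∃ q, ¬ E q b := fun b hb =>
    ⟨t, fun h => hb (by rw [h rfl, ha])⟩
  have hall : ∀ b, f b ≠ 0 → ∃ q : ZMod p, ¬ (fun _ _ => False : ZMod p → α → Prop) q b :=
    fun b _ => ⟨0, fun h => h⟩
  refine ((meas_nOut f t _ hall).sub (meas_nOut f t E hb)).congr fun w => ?_
  rcases first_hit f t w 0 with ⟨h1, -⟩ | ⟨u, hu, v, rfl⟩
  · simp [xc, nOut, cnt_never f t _ h1]
  obtain ⟨S, hS, x, hx, rfl⟩ := ret_decomp f t v.length v le_rfl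
  simp only [xc, nOut_av f t _ u _ hu.1, cnt_av f t _ u _ _ hu.1, hu.2]
  induction S with
  | nil =>
    rw [List.flatten_nil, List.nil_append, cnt_tail f t _ hx, nOut_tail f t _ hx,
      nOut_tail f t _ hx, ind, if_neg, sub_zero]
    rintro ⟨hne, hh⟩
    rcases hx with rfl | ⟨b, z, rfl, h1, h2⟩
    · exact hne rfl
    · obtain rfl : b = a := by simpa [Hd] using hh
      rw [ha, add_zero] at h1 h2
      rcases z with - | ⟨c, z⟩
      · simp at h2
      · exact h1.1 rfl
  | cons r S ih =>
    have hr := hS r List.mem_cons_self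
    rw [List.flatten_cons, List.append_assoc, cnt_ret f t _ hr, nOut_ret f t _ hr,
      nOut_ret f t _ hr, ih fun z hz => hS z (List.mem_cons_of_mem _ hz)]
    obtain ⟨b, z, rfl, hz1, hz2⟩ := hr
    have hh : Ok f E t (b :: z) ↔ b = a := by
      rw [ok_cons, ok_last f t (E := E) (fun s c hs _ h => absurd h hs) hz1 hz2]
      constructor
      · exact fun h => h.1 rfl
      · rintro rfl
        refine ⟨fun _ => rfl, ?_⟩
        intro c hc
        rcases z with - | ⟨d, z⟩
        · simp at hc
        · exact absurd (by rw [ha, add_zero]) hz1.1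
    have e1 : Hd a (b :: (z ++ (S.flatten ++ x))) ↔ b = a := by simp [Hd]
    have e0 : ¬ Ok f (fun _ _ => False) t (b :: z) := fun h => h.1
    rw [List.cons_append]
    simp only [ind, if_pos e0]
    by_cases hba : b = a
    · rw [if_pos (e1.2 hba), if_neg (not_not_intro (hh.2 hba))]; ring
    · rw [if_neg (hba ∘ e1.1), if_pos (hba ∘ hh.1)]; ring

omit [NeZero p] [Fintype α] in
theorem ret_ok_one (ha : f a ≠ 0) {b : α} {z : List α} (hz1 : Ok f (Av t) (t + f b) z)
    (hz2 : t + f b + tr f z = t) :
    Ok f (fun s b => (s = t → b = a) ∧ (s = t - f a → b ≠ a)) t (b :: z) ↔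
      b = a ∧ ¬ z.getLast? = some a := by
  have hne : t - f a ≠ t := fun h => ha (by linear_combination -h)
  rw [ok_cons, ok_last f t (fun s c hs h => ⟨fun e => absurd e hs, fun e hc =>
    h (by rw [e, hc]; ring)⟩) hz1 hz2]
  constructor
  · rintro ⟨h1, h2⟩
    exact ⟨h1.1 rfl, fun e => (h2 a e).2 rfl rfl⟩
  · rintro ⟨rfl, h2⟩
    refine ⟨⟨fun _ => rfl, fun e => absurd e.symm hne⟩, fun c hc => ⟨fun e => ?_, ?_⟩⟩
    · obtain ⟨ys, rfl⟩ := List.getLast?_eq_some_iff.1 hc
      have h3 := ((ok_append f _ ys [c] _).1 hz1).2.1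
      rw [tr_append, tr_cons, tr_nil] at hz2
      exact absurd (by linear_combination hz2 + e) h3
    · rintro - rfl
      exact h2 hc

omit [NeZero p] [Fintype α] in
theorem ret_ok_two (ha : f a ≠ 0) {b : α} {z : List α} (hz1 : Ok f (Av t) (t + f b) z)
    (hz2 : t + f b + tr f z = t) :
    Ok f (fun s b => (s + f b = t → b = a) ∧ (s = t → b ≠ a)) t (b :: z) ↔
      ¬ b = a ∧ z.getLast? = some a := by
  have hne : t - f a ≠ t := fun h => ha (by linear_combination -h)
  rw [ok_cons, ok_last f t (fun s c hs h => ⟨fun e => absurd e h, fun e => absurd e hs⟩) hz1 hz2]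
  constructor
  · rintro ⟨h1, h2⟩
    refine ⟨h1.2 rfl, ?_⟩
    rcases List.eq_nil_or_concat z with rfl | ⟨ys, c, rfl⟩
    · rw [tr_nil, add_zero] at hz2
      exact absurd (h1.1 hz2) (h1.2 rfl)
    · rw [List.concat_eq_append] at h2 ⊢
      simp [(h2 c (by simp)).1 (by ring)]
  · rintro ⟨h1, h2⟩
    refine ⟨⟨fun e => ?_, fun _ => h1⟩, fun c hc => ?_⟩
    · rcases z with - | ⟨d, z⟩
      · simp at h2
      · exact absurd e hz1.1
    · rw [h2] at hc
      obtain rfl := Option.some.inj hc
      exact ⟨fun _ => rfl, fun e => absurd e hne⟩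

theorem meas_xc_sub (ha : f a ≠ 0) :
    Meas (fun w => xc f a t 0 w - xc f a (t - f a) 0 w) := by
  classical
  have hne : t - f a ≠ t := fun h => ha (by linear_combination -h)
  set E₁ : ZMod p → α → Prop := fun s b => (s = t → b = a) ∧ (s = t - f a → b ≠ a)
  set E₂ : ZMod p → α → Prop := fun s b => (s + f b = t → b = a) ∧ (s = t → b ≠ a)
  have hb₁ : ∀ b, f b ≠ 0 → ∃ q, ¬ E₁ q b := fun b _ =>
    if h : b = a then ⟨t - f a, fun e => e.2 rfl h⟩ else ⟨t, fun e => h (e.1 rfl)⟩
  have hb₂ : ∀ b, f b ≠ 0 → ∃ q, ¬ E₂ q b := fun b _ =>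
    if h : b = a then ⟨t, fun e => e.2 rfl h⟩ else ⟨t - f b, fun e => h (e.1 (by ring))⟩
  set Lu : Language α := (lg fun u => u ∈ Pth f (Av t) 0 t ∧ u.getLast? = some a) *
    lg fun _ => True with hLu
  set Lx : Language α := Pth f (Av t) 0 t * (Ret f t)∗ *
    lg fun x => x ∈ Tail f t ∧ x.head? = some a with hLx
  have hLu1 : Ht 1 Lu :=
    ((ht_hit f t 0).inter (ht_last a)).mul ht_univ
  have hLx1 : Ht 1 Lx :=
    ((ht_hit f t 0).mul (ht_ret f t (k := 0)).star).mul ((ht_tail f t).inter (ht_head a))
  refine (((meas_nOut f t E₂ hb₂).sub (meas_nOut f t E₁ hb₁)).add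
    ((meas_ind Lx hLx1).sub (meas_ind Lu hLu1))).congr fun w => ?_
  have hrsum : ∀ (u : List α), u ∈ Pth f (Av t) 0 t → ∀ (S : List (List α)),
      (∀ r ∈ S, r ∈ Ret f t) → ∀ x ∈ Tail f t,
      xc f a t 0 (u ++ S.flatten ++ x) - xc f a (t - f a) 0 (u ++ S.flatten ++ x)
        - (nOut f t E₂ 0 (u ++ S.flatten ++ x) - nOut f t E₁ 0 (u ++ S.flatten ++ x))
      = ind (x.head? = some a) - ind (u.getLast? = some a) := by
    intro u hu S hS x hx
    rw [List.append_assoc, xc_hit f t a _ hu.1 hu.2]
    simp only [xc, nOut_av f t _ u _ hu.1, cnt_av f t _ u _ _ hu.1, hu.2]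
    induction S with
    | nil =>
      rw [List.flatten_nil, List.nil_append, cnt_tail f t _ hx, nOut_tail f t _ hx,
        nOut_tail f t _ hx]
      have h0 : (cnt f (t - f a) (Hd a) t x : ℤ) = 0 := by
        rcases hx with rfl | ⟨b, z, rfl, h1, h2⟩
        · simp [cnt]
        · have := xc_never f t a h1 h2
          simp only [xc] at this
          rw [cnt, if_neg (fun e => hne e.1.symm), zero_add]
          exact this
      rw [h0]
      have : ind (x ≠ [] ∧ Hd a x) = ind (x.head? = some a) := by
        congr 1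
        apply propext
        exact ⟨fun h => h.2, fun h => ⟨fun e => by simp [e] at h, h⟩⟩
      rw [this]; ring
    | cons r S ih =>
      have hr := hS r List.mem_cons_self
      have ih' := ih fun z hz => hS z (List.mem_cons_of_mem _ hz)
      rw [List.flatten_cons, List.append_assoc, cnt_ret f t _ hr, nOut_ret f t _ hr,
        nOut_ret f t _ hr]
      obtain ⟨b, z, rfl, hz1, hz2⟩ := hr
      have hx' := xc_hit f t a (S.flatten ++ x) hz1 hz2
      simp only [xc] at hx'
      rw [List.cons_append, cnt, if_neg (fun e => hne e.1.symm), zero_add, hx']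
      have h₁ : Ok f E₁ t (b :: z) ↔ _ := ret_ok_one f t a ha hz1 hz2
      have h₂ : Ok f E₂ t (b :: z) ↔ _ := ret_ok_two f t a ha hz1 hz2
      have hb : Hd a (b :: (z ++ (S.flatten ++ x))) ↔ b = a := by simp [Hd]
      simp only [hb, h₁, h₂, ind] at ih' ⊢
      by_cases c1 : b = a <;> by_cases c2 : z.getLast? = some a <;>
        simp only [c1, c2, not_true_eq_false, not_false_eq_true, and_self, and_true, and_false,
          if_true, if_false] <;> linear_combination ih'
  rcases first_hit f t w 0 with ⟨h1, h2⟩ | ⟨u, hu, v, rfl⟩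
  · have hno : ∀ y v, y ∈ Pth f (Av t) 0 t → y ++ v ≠ w := fun y v hy e =>
      h2 (by subst e; exact av_not_hit f t hy h1)
    rw [xc, cnt_never f t _ h1, xc_never f t a h1 h2, nOut, nOut, cnt_never f t _ h1,
      cnt_never f t _ h1, if_neg, if_neg]
    · simp
    · rintro h
      obtain ⟨y, ⟨hy, -⟩, r, -, e⟩ := Language.mem_mul.1 h
      exact hno y r hy e
    · rintro h
      obtain ⟨y, hy, x, -, rfl⟩ := Language.mem_mul.1 h
      obtain ⟨y, hy', r, -, rfl⟩ := Language.mem_mul.1 hy
      exact hno y (r ++ x) hy' (by simp)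
  obtain ⟨S, hS, x, hx, rfl⟩ := ret_decomp f t v.length v le_rfl
  have key := hrsum u hu S hS x hx
  rw [List.append_assoc] at key
  have hu' : u ++ (S.flatten ++ x) ∈ Lu ↔ u.getLast? = some a := by
    constructor
    · intro h
      obtain ⟨y, ⟨hy, hy'⟩, r, -, e⟩ := Language.mem_mul.1 h
      rwa [← av_prefix_eq f t hy hu e]
    · exact fun h => Language.append_mem_mul ⟨hu, h⟩ trivial
  have hx' : u ++ (S.flatten ++ x) ∈ Lx ↔ x.head? = some a := by
    constructor
    · intro h
      obtain ⟨y, hy, x', ⟨hxt, hxa⟩, e⟩ := Language.mem_mul.1 h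
      obtain ⟨u', hu₂, r, hr, rfl⟩ := Language.mem_mul.1 hy
      obtain ⟨S', rfl, hS'⟩ := Language.mem_kstar.1 hr
      have key' := hrsum u' hu₂ S' hS' x' hxt
      rw [e, key] at key'
      have huu : u' = u := av_prefix_eq f t (v := S'.flatten ++ x') hu₂ hu
        (by rw [← List.append_assoc]; exact e)
      subst huu
      by_contra hc
      simp [ind, hxa, hc] at key'
      split_ifs at key' <;> omega
    · intro h
      rw [← List.append_assoc]
      exact Language.append_mem_mul (Language.append_mem_mul hu (Language.join_mem_kstar hS))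
        ⟨hx, h⟩
  simp only [ind, ← hu', ← hx'] at key
  linear_combination key

omit [NeZero p] [Fintype α] in
open Classical in
theorem count_eq_sum [Fintype (ZMod p)] (w : List α) :
    ∀ q : ZMod p, ∑ s : ZMod p, xc f a s q w = (w.count a : ℤ) := by
  induction w with
  | nil => simp [xc, cnt]
  | cons b w ih =>
    intro q
    have := ih (q + f b)
    simp only [xc, cnt, Nat.cast_add, Finset.sum_add_distrib] at this ⊢
    rw [this]
    by_cases h : b = a <;> simp [h, Hd, Finset.sum_ite_eq, add_comm]

open Classical in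
/-- Occurrences of a letter at a given phase are measurable. -/
theorem meas_xc : Meas (xc f a t 0) := by
  by_cases ha : f a = 0
  · exact meas_xc_zero f t a ha
  have step : ∀ j : ℕ, Meas (fun w => xc f a t 0 w - xc f a (t - j * f a) 0 w) := by
    intro j
    induction j with
    | zero => exact (meas_const 0).congr fun w => by simp
    | succ j ih =>
      refine (ih.add (meas_xc_sub f (t - j * f a) a ha)).congr fun w => ?_
      have : t - ((j + 1 : ℕ) : ZMod p) * f a = t - j * f a - f a := by push_cast; ring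
      rw [this]; ring
  have hd : ∀ s, Meas (fun w => xc f a t 0 w - xc f a s 0 w) := fun s => by
    convert step ((t - s) / f a).val using 3 with w
    rw [ZMod.natCast_zmod_val, div_mul_cancel₀ _ ha, sub_sub_cancel]
  refine Meas.of_mul (d := p) (NeZero.pos p) ?_
  refine ((meas_count a).add (meas_sum Finset.univ _ fun s _ => hd s)).congr fun w => ?_
  rw [Finset.sum_sub_distrib, count_eq_sum]
  simp [ZMod.card]

end Vale.Agent.P329.Grp
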