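import Mathlib
import Vale.Agent.P329.GrpLetter

/-!
Languages recognised by abelian-by-(elementary abelian) finite groups have star height at most one.
-/

namespace Vale.Agent.P329.Grp

open H36 Computability

variable {α : Type} [Fintype α] [DecidableEq α] {p : ℕ} [Fact p.Prime]

/-- The number of occurrences of each letter, modulo `p`. -/
def cvec (w : List α) : α → ZMod p := fun b => (w.count b : ZMod p)

open Classical in
/-- Occurrences of `a` at vector phase `v`, starting at phase `u`. -/
noncomputable def yc (v : α → ZMod p) (a : α) : (α → ZMod p) → List α → ℕ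
  | _, [] => 0
  | u, b :: w => (if u = v ∧ b = a then 1 else 0) + yc v a (u + Pi.single b 1) w

omit [Fintype α] in
theorem cvec_cons (u : α → ZMod p) (b : α) (w : List α) :
    u + cvec (b :: w) = u + Pi.single b 1 + cvec w := by
  funext c
  by_cases h : c = b
  · subst h; simp [cvec]; ring
  · simp [cvec, h, Ne.symm h]

theorem dot_single (c : α → ZMod p) (u : α → ZMod p) (b : α) :
    ∑ i, c i * (u + Pi.single b 1 : α → ZMod p) i = (∑ i, c i * u i) + c b := by
  simp [mul_add, Finset.sum_add_distrib, Pi.single_apply, mul_ite]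

open Classical in
theorem hyper_count (u v : α → ZMod p) :
    (p : ℤ) * ((Finset.univ.filter
        fun c : α → ZMod p => ∑ i, c i * u i = ∑ i, c i * v i).card : ℤ)
      - (Fintype.card (α → ZMod p) : ℤ)
    = if u = v then ((p : ℤ) - 1) * Fintype.card (α → ZMod p) else 0 := by
  by_cases h : u = v
  · subst h
    rw [Finset.filter_true_of_mem (fun c _ => rfl), Finset.card_univ, if_pos rfl]
    ring
  rw [if_neg h, sub_eq_zero]
  obtain ⟨b, hb⟩ := Function.ne_iff.1 h
  have hd : u b - v b ≠ 0 := sub_ne_zero.2 hb
  let g : (α → ZMod p) → ZMod p := fun c => ∑ i, c i * (u i - v i)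
  have hfilter : (Finset.univ.filter
      fun c : α → ZMod p => ∑ i, c i * u i = ∑ i, c i * v i)
      = Finset.univ.filter fun c => g c = 0 := by
    refine Finset.filter_congr fun c _ => ?_
    simp only [g, mul_sub, Finset.sum_sub_distrib, sub_eq_zero]
  have hfib : ∀ s : ZMod p, (Finset.univ.filter fun c => g c = s).card
      = (Finset.univ.filter fun c => g c = 0).card := by
    intro s
    have hg : ∀ c r, g (c + Pi.single b r) = g c + r * (u b - v b) := by
      intro c r
      simp [g, add_mul, Finset.sum_add_distrib, Pi.single_apply, ite_mul]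
    refine Finset.card_nbij' (fun c => c + Pi.single b (-s / (u b - v b)))
      (fun c => c + Pi.single b (s / (u b - v b))) ?_ ?_ ?_ ?_
    · intro c hc
      simp only [Finset.coe_filter, Finset.mem_univ, true_and, Set.mem_ofPred_eq] at hc ⊢
      rw [hg, hc, div_mul_cancel₀ _ hd, add_neg_cancel]
    · intro c hc
      simp only [Finset.coe_filter, Finset.mem_univ, true_and, Set.mem_ofPred_eq] at hc ⊢
      rw [hg, hc, div_mul_cancel₀ _ hd, zero_add]
    · intro c _
      simp [add_assoc, ← Pi.single_add, neg_div]
    · intro c _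
      simp [add_assoc, ← Pi.single_add, neg_div]
  have := Finset.card_eq_sum_card_fiberwise
    (s := (Finset.univ : Finset (α → ZMod p))) (t := Finset.univ) (f := g)
    (fun _ _ => Finset.mem_univ _)
  rw [Finset.sum_congr rfl fun s _ => hfib s, Finset.sum_const, Finset.card_univ,
    Finset.card_univ, ZMod.card, smul_eq_mul] at this
  rw [hfilter, this]
  push_cast; ring

open Classical in
theorem vec_identity (v : α → ZMod p) (a : α) (w : List α) : ∀ u : α → ZMod p,
    ∑ c : α → ZMod p, (p : ℤ) * xc c a (∑ i, c i * v i) (∑ i, c i * u i) w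
      - (Fintype.card (α → ZMod p) : ℤ) * w.count a
    = ((p : ℤ) - 1) * Fintype.card (α → ZMod p) * yc v a u w := by
  induction w with
  | nil => simp [xc, cnt, yc]
  | cons b w ih =>
    intro u
    have e := ih (u + Pi.single b 1)
    simp only [dot_single] at e
    have hx : ∀ c : α → ZMod p, xc c a (∑ i, c i * v i) (∑ i, c i * u i) (b :: w)
        = (if (∑ i, c i * u i = ∑ i, c i * v i) ∧ b = a then 1 else 0)
          + xc c a (∑ i, c i * v i) ((∑ i, c i * u i) + c b) w := by
      intro c
      simp [xc, cnt, Hd]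
    simp only [hx, mul_add, Finset.sum_add_distrib, yc, Nat.cast_add]
    by_cases hb : b = a
    · subst hb
      have hh := hyper_count u v
      simp only [and_true, mul_ite, mul_one, mul_zero, Finset.sum_ite, Finset.sum_const_zero,
        Finset.sum_const, nsmul_eq_mul, List.count_cons_self, add_zero] at hh ⊢
      by_cases huv : u = v
      · simp only [huv, if_true, Nat.cast_one] at hh e ⊢
        push_cast at hh e ⊢
        linear_combination hh + e
      · simp only [huv, if_false, Nat.cast_zero] at hh e ⊢
        push_cast at hh e ⊢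
        linear_combination hh + e
    · simp only [hb, and_false, if_false, mul_zero, Finset.sum_const_zero, zero_add,
        List.count_cons_of_ne hb, Nat.cast_zero]
      linear_combination e

theorem meas_yc (v : α → ZMod p) (a : α) : Meas (fun w => (yc v a 0 w : ℤ)) := by
  have hp : 2 ≤ p := (Fact.out : p.Prime).two_le
  refine Meas.of_mul (d := (p - 1) * Fintype.card (α → ZMod p))
    (Nat.mul_pos (by omega) Fintype.card_pos) ?_
  refine ((meas_sum Finset.univ _ fun c _ =>
    (meas_xc (f := c) (t := ∑ i, c i * v i) (a := a)).const_mul (p : ℤ)).sub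
    ((meas_count a).const_mul (Fintype.card (α → ZMod p) : ℤ))).congr fun w => ?_
  have := vec_identity v a w 0
  simp only [Pi.zero_apply, mul_zero, Finset.sum_const_zero] at this
  rw [this, Nat.cast_mul, Nat.cast_sub (by omega : 1 ≤ p)]
  simp

omit [Fintype α] [DecidableEq α] in
theorem ht_residue (F : List α → ℕ) (h : Meas (fun w => (F w : ℤ))) (m : ℕ) [NeZero m]
    (r : ZMod m) : Ht 1 (lg fun w => (F w : ZMod m) = r) :=
  (h m (NeZero.pos m) r).of_iff fun w => by simp

/-- A finite group with an abelian normal subgroup whose quotient is elementary abelian. -/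
def AbelianByElementary (G : Type) [Group G] : Prop :=
  ∃ (p : ℕ) (A : Subgroup G), p.Prime ∧ A.Normal ∧ (∀ x ∈ A, ∀ y ∈ A, x * y = y * x) ∧
    (∀ x : G, x ^ p ∈ A) ∧ ∀ x y : G, x * y * x⁻¹ * y⁻¹ ∈ A

omit [Fintype α] [DecidableEq α] in
theorem pow_val_succ {Q : Type} [Monoid Q] [NeZero p] {x : Q} (hx : x ^ p = 1) (i : ZMod p) :
    x ^ (i + 1).val = x ^ i.val * x := by
  rw [← pow_succ, pow_eq_pow_mod _ hx, pow_eq_pow_mod (i.val + 1) hx]
  congr 1
  rw [ZMod.val_add, ZMod.val_one_eq_one_mod, Nat.mod_mod, Nat.add_mod_mod]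

theorem ht_group (G : Type) [Group G] [Finite G] (hG : AbelianByElementary G) (g : α → G)
    (P : G → Prop) : Ht 1 (lg fun w : List α => P (w.map g).prod) := by
  classical
  obtain ⟨p, A, hp, hA, hcomm, hpow, hcom⟩ := hG
  haveI := Fact.mk hp
  haveI := hA
  letI : CommGroup (G ⧸ A) :=
    { (inferInstance : Group (G ⧸ A)) with
      mul_comm := fun x y => by
        induction x using QuotientGroup.induction_on with | _ x =>
        induction y using QuotientGroup.induction_on with | _ y =>
        rw [← QuotientGroup.mk_mul, ← QuotientGroup.mk_mul, QuotientGroup.eq]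
        convert hcom y⁻¹ x⁻¹ using 1
        group }
  letI : CommGroup A :=
    { (inferInstance : Group A) with
      mul_comm := fun x y => Subtype.ext (hcomm _ x.2 _ y.2) }
  have hq : ∀ x : G ⧸ A, x ^ p = 1 := fun x => by
    induction x using QuotientGroup.induction_on with | _ x =>
    rw [← QuotientGroup.mk_pow, QuotientGroup.eq_one_iff]
    exact hpow x
  set π : (α → ZMod p) → G ⧸ A := fun u => ∏ b, (QuotientGroup.mk (g b) : G ⧸ A) ^ (u b).val
    with hπ
  have hπs : ∀ u b, π (u + Pi.single b 1) = π u * QuotientGroup.mk (g b) := by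
    intro u b
    have : ∀ c, (QuotientGroup.mk (g c) : G ⧸ A) ^ ((u + Pi.single b 1 : α → ZMod p) c).val
        = (QuotientGroup.mk (g c) : G ⧸ A) ^ (u c).val *
          (if c = b then (QuotientGroup.mk (g b) : G ⧸ A) else 1) := by
      intro c
      by_cases h : c = b
      · subst h; simp [pow_val_succ (hq _)]
      · simp [h]
    simp only [hπ, this, Finset.prod_mul_distrib, Finset.prod_ite_eq', Finset.mem_univ, if_true]
  set τ : (α → ZMod p) → G := fun u => if u = 0 then 1 else (π u).out
  have hτ : ∀ u, (QuotientGroup.mk (τ u) : G ⧸ A) = π u := by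
    intro u
    by_cases h : u = 0
    · subst h; simp [τ, hπ]
    · simp [τ, h]
  have hc : ∀ u b, τ u * g b * (τ (u + Pi.single b 1))⁻¹ ∈ A := fun u b => by
    rw [← QuotientGroup.eq_one_iff, QuotientGroup.mk_mul, QuotientGroup.mk_mul,
      QuotientGroup.mk_inv, hτ, hτ, hπs, mul_inv_cancel]
  set C : (α → ZMod p) × α → A := fun x => ⟨_, hc x.1 x.2⟩
  have hprod : ∀ (w : List α) (u : α → ZMod p), τ u * (w.map g).prod
      = ((∏ x : (α → ZMod p) × α, C x ^ yc x.1 x.2 u w : A) : G) * τ (u + cvec w) := by
    intro w
    induction w with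
    | nil =>
      intro u
      have : (cvec ([] : List α) : α → ZMod p) = 0 := by funext c; simp [cvec]
      simp [yc, this]
    | cons b w ih =>
      intro u
      have hC : (∏ x : (α → ZMod p) × α, C x ^ yc x.1 x.2 u (b :: w))
          = C (u, b) * ∏ x : (α → ZMod p) × α, C x ^ yc x.1 x.2 (u + Pi.single b 1) w := by
        simp only [yc, pow_add, Finset.prod_mul_distrib]
        congr 1
        rw [Finset.prod_eq_single (u, b)]
        · simp
        · rintro ⟨x, c⟩ - hne
          rw [if_neg, pow_zero]
          rintro ⟨rfl, rfl⟩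
          exact hne rfl
        · exact fun h => absurd (Finset.mem_univ _) h
      rw [List.map_cons, List.prod_cons, hC, Subgroup.coe_mul, cvec_cons, mul_assoc _ _ (τ _),
        ← ih]
      simp only [C]
      group
  have hτ0 : τ 0 = 1 := by simp [τ]
  set n := Nat.card A
  haveI : NeZero n := ⟨Nat.card_pos.ne'⟩
  set val : ((α → ZMod p) × α → ZMod n) × (α → ZMod p) → G := fun s =>
    ((∏ x : (α → ZMod p) × α, C x ^ (s.1 x).val : A) : G) * τ s.2
  have hval : ∀ w : List α,
      (w.map g).prod = val (fun x => (yc x.1 x.2 0 w : ZMod n), cvec w) := by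
    intro w
    have := hprod w 0
    rw [hτ0, one_mul, zero_add] at this
    rw [this]
    refine congrArg (fun z : A => (z : G) * _) (Finset.prod_congr rfl fun x _ => ?_)
    rw [ZMod.val_natCast]
    exact pow_eq_pow_mod _ pow_card_eq_one'
  refine (ht_exists (fun s : ((α → ZMod p) × α → ZMod n) × (α → ZMod p) =>
    lg fun w => P (val s) ∧ w ∈ lg fun w =>
      w ∈ (lg fun w => ∀ x, w ∈ lg fun w => (yc x.1 x.2 0 w : ZMod n) = s.1 x) ∧
      w ∈ (lg fun w => ∀ b, w ∈ lg fun w : List α => (w.count b : ZMod p) = s.2 b))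
    fun s => ht_cond _ ((ht_forall (fun x : (α → ZMod p) × α => lg fun w => (yc x.1 x.2 0 w : ZMod n) = s.1 x)
        fun x => ht_residue _ (meas_yc x.1 x.2) n _).inter
      (ht_forall (fun b : α => lg fun w : List α => (w.count b : ZMod p) = s.2 b)
        fun b => ht_residue _ (meas_count b) p _))).of_iff fun w => ?_
  simp only [mem_lg]
  constructor
  · intro h
    exact ⟨_, hval w ▸ h, fun x => rfl, fun b => rfl⟩
  · rintro ⟨⟨s, v⟩, h, h1, h2⟩
    have e1 : (fun x : (α → ZMod p) × α => (yc x.1 x.2 0 w : ZMod n)) = s := funext h1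
    have e2 : cvec w = v := funext h2
    rwa [hval, e1, e2]

theorem list_prod_apply {ι : Type} {G : ι → Type} [∀ i, Monoid (G i)] (L : List ((i : ι) → G i))
    (i : ι) : L.prod i = (L.map fun z => z i).prod := by
  induction L with
  | nil => simp
  | cons a L ih => simp [ih]

/-- Products of abelian-by-elementary groups. -/
theorem ht_group_prod {ι : Type} [Fintype ι] (G : ι → Type) [∀ i, Group (G i)] [∀ i, Finite (G i)]
    (hG : ∀ i, AbelianByElementary (G i)) (g : α → (i : ι) → G i) (P : ((i : ι) → G i) → Prop) :
    Ht 1 (lg fun w : List α => P (w.map g).prod) := by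
  classical
  haveI := Fintype.ofFinite ((i : ι) → G i)
  refine (ht_exists (fun s : (i : ι) → G i => lg fun w => P s ∧ w ∈ lg fun w =>
      ∀ i, w ∈ lg fun w : List α => (w.map fun b => g b i).prod = s i)
    fun s => ht_cond _ (ht_forall _ fun i =>
      ht_group (G i) (hG i) (fun b => g b i) fun z => z = s i)).of_iff fun w => ?_
  simp only [mem_lg]
  have e : ∀ i, (w.map g).prod i = (w.map fun b => g b i).prod := fun i => by
    rw [list_prod_apply, List.map_map]; rfl
  constructor
  · exact fun h => ⟨_, h, fun i => (e i).symm⟩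
  · rintro ⟨s, h, hs⟩
    convert h
    funext i
    rw [e, hs]

end Vale.Agent.P329.Grp
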